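import Vale.Agent.P275FM.Sf

/-!
# P269, block H: forms of type `(0,*)` with values in `O(-t)`

`O(-t)` is the subbundle of the trivial bundle spanned by `(x_i ^ t)_i`.
-/

open scoped Manifold ContDiff Topology Matrix
open Filter
open Vale.Agent.P272.K Vale.Agent.P272.K.C2 Vale.Agent.P272.K.INT Vale.Agent.P299.IX
  Vale.Agent.P299.IX.Fock Vale.Agent.P281Z.Hg Vale.Agent.P281Z.Hg.G1H Vale.Agent.P281Z.Hg.G2H
  Vale.Agent.P275MC Vale.Agent.P275FM
open Vale.Agent.P281Z.Hg.Pb1H (ca)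
open Vale.Agent.P275AR (ty ty_vl gl gl_vl gl_ty gl_dd gl_del)
open Vale.Agent.P277Z (Hol)

noncomputable section

namespace Vale.Agent.P269HK

variable {n : ℕ} {Y : Type} [TopologicalSpace Y] [ChartedSpace (Cm n) Y] {I : Type}
  {e : Chart n Y} {y : Y}

variable (n) in
/-- the complex function `g` is smooth at `y` -/
def Smt (g : Y → ℂ) (y : Y) : Prop :=
  ∀ e : Chart n Y, At e y → ContDiffAt ℝ ∞ (fun z => g (e.symm z)) (e y)

theorem smt_of_hol {g : Y → ℂ} (h : Hol n g y) : Smt n g y := fun e he =>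
  ((h e he).restrictScalars (𝕜 := ℝ)).contDiffAt

theorem Smt.mul {g g' : Y → ℂ} (h : Smt n g y) (h' : Smt n g' y) :
    Smt n (fun x => g x * g' x) y := fun e he => (h e he).mul (h' e he)

theorem Smt.add {g g' : Y → ℂ} (h : Smt n g y) (h' : Smt n g' y) :
    Smt n (fun x => g x + g' x) y := fun e he => (h e he).add (h' e he)

theorem Smt.pow {g : Y → ℂ} (h : Smt n g y) (k : ℕ) : Smt n (fun x => g x ^ k) y :=
  fun e he => (h e he).pow k

theorem smt_const (a : ℂ) : Smt n (fun _ : Y => a) y := fun _ _ => contDiffAt_const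

theorem Smt.sum {ι : Type*} (s : Finset ι) {g : ι → Y → ℂ} (h : ∀ i ∈ s, Smt n (g i) y) :
    Smt n (fun x => ∑ i ∈ s, g i x) y := fun e he => ContDiffAt.sum fun i hi => h i hi e he

theorem ev_symm {P : Y → Prop} (he : At e y) (h : ∀ᶠ x in 𝓝 y, P x) :
    ∀ᶠ z in 𝓝 (e y), P (e.symm z) := (e.tendsto_symm he.2).eventually h

theorem Smt.congr {g g' : Y → ℂ} (h : Smt n g y) (k : ∀ᶠ x in 𝓝 y, g x = g' x) : Smt n g' y :=
  fun e he => (h e he).congr_of_eventuallyEq ((ev_symm he k).mono fun _ hz => hz.symm)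

theorem Smt.cont {g : Y → ℂ} (h : Smt n g y) : ContinuousAt g y := by
  have he := ca (d := n) y
  refine ((h _ he).continuousAt.comp ((chartAt (Cm n) y).continuousAt he.2)).congr ?_
  filter_upwards [(chartAt (Cm n) y).open_source.mem_nhds he.2] with x hx
  exact congrArg g ((chartAt (Cm n) y).left_inv hx)

variable (n Y I) in
/-- homogeneous coordinates: `x y` is any representative, the ratios are holomorphic -/
structure HC where
  x : Y → I → ℂ
  ne : ∀ y, ∃ k, x y k ≠ 0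
  hol : ∀ y k, x y k ≠ 0 → ∀ j, Hol n (fun y' => x y' j / x y' k) y

namespace HC

variable (H : HC n Y I)

theorem near {k : I} (h : H.x y k ≠ 0) : ∀ᶠ y' in 𝓝 y, H.x y' k ≠ 0 := by
  have h1 := (smt_of_hol (H.hol y k h k)).cont.eventually_ne (y := 0)
    (by rw [div_self h]; exact one_ne_zero)
  exact h1.mono fun _ h2 h3 => h2 (by rw [h3, div_zero])

/-- `F` is a smooth section of `O(m)` -/
def Hs (m : ℤ) (F : Y → ℂ) : Prop := ∀ y k, H.x y k ≠ 0 → Smt n (fun y' => F y' / H.x y' k ^ m) y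

/-- `F` is a holomorphic section of `O(m)` -/
def Hh (m : ℤ) (F : Y → ℂ) : Prop := ∀ y k, H.x y k ≠ 0 → Hol n (fun y' => F y' / H.x y' k ^ m) y

variable {H}

theorem Hh.hs {m : ℤ} {F : Y → ℂ} (h : H.Hh m F) : H.Hs m F := fun y k hk => smt_of_hol (h y k hk)

theorem Hs.mul {m m' : ℤ} {F F' : Y → ℂ} (h : H.Hs m F) (h' : H.Hs m' F') :
    H.Hs (m + m') fun y => F y * F' y := fun y k hk =>
  ((h y k hk).mul (h' y k hk)).congr ((H.near hk).mono fun _ h1 => by
    rw [zpow_add₀ h1, mul_div_mul_comm])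

theorem Hs.add {m : ℤ} {F F' : Y → ℂ} (h : H.Hs m F) (h' : H.Hs m F') :
    H.Hs m fun y => F y + F' y := fun y k hk =>
  ((h y k hk).add (h' y k hk)).congr (.of_forall fun _ => (add_div _ _ _).symm)

theorem hs_zero_iff {F : Y → ℂ} : H.Hs 0 F ↔ ∀ y, Smt n F y := by
  simp only [Hs, zpow_zero, div_one]
  exact ⟨fun h y => (H.ne y).elim (h y), fun h y _ _ => h y⟩

theorem hh_x (j : I) : H.Hh 1 fun y => H.x y j := fun y k hk => by
  simpa only [zpow_one] using H.hol y k hk j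

theorem Hh.mul {m m' : ℤ} {F F' : Y → ℂ} (h : H.Hh m F) (h' : H.Hh m' F') :
    H.Hh (m + m') fun y => F y * F' y := fun y k hk =>
  Hol.congr (a := fun y' => F y' / H.x y' k ^ m * (F' y' / H.x y' k ^ m'))
    (fun e he => (h y k hk e he).fun_mul (h' y k hk e he)) ((H.near hk).mono fun _ h1 => by
      rw [zpow_add₀ h1, mul_div_mul_comm])

theorem Hh.add {m : ℤ} {F F' : Y → ℂ} (h : H.Hh m F) (h' : H.Hh m F') :
    H.Hh m fun y => F y + F' y := fun y k hk =>
  Hol.congr (a := fun y' => F y' / H.x y' k ^ m + F' y' / H.x y' k ^ m)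
    (fun e he => (h y k hk e he).fun_add (h' y k hk e he))
    (.of_forall fun _ => (add_div _ _ _).symm)

theorem hh_const (a : ℂ) : H.Hh 0 fun _ => a := fun _ _ _ _ _ => by
  simp only [zpow_zero, div_one]
  exact analyticAt_const

variable (H) [IsManifold 𝓘(ℂ, Cm n) ω Y]

/-- the forms of type `(0,*)` with values in `O(-t)` -/
def Tw (t : ℕ) : Submodule ℂ (I → SF n Y) where
  carrier := {v | (∀ i, ty n Y 0 (v i) = v i) ∧ ∀ e y, At e y → ∀ i j,
    H.x y j ^ t • vl (v i) e (e y) = H.x y i ^ t • vl (v j) e (e y)}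
  add_mem' := fun {a b} ha hb => ⟨fun i => by rw [Pi.add_apply, map_add, ha.1, hb.1],
    fun e y h i j => by
      rw [Pi.add_apply, Pi.add_apply, vl_add, vl_add, smul_add, smul_add, ha.2 e y h i j,
        hb.2 e y h i j]⟩
  zero_mem' := ⟨fun _ => map_zero _, fun _ _ _ _ _ => by
    rw [Pi.zero_apply, Pi.zero_apply, vl_zero, smul_zero, smul_zero]⟩
  smul_mem' := fun c a ha => ⟨fun i => by rw [Pi.smul_apply, map_smul, ha.1], fun e y h i j => by
    rw [Pi.smul_apply, Pi.smul_apply, vl_smul, vl_smul, smul_comm, ha.2 e y h i j, smul_comm]⟩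

/-- the space of twisted forms -/
abbrev A (t : ℕ) : Type := H.Tw t

/-- an index with nonzero coordinate -/
def κ (y : Y) : I := (H.ne y).choose

omit [IsManifold 𝓘(ℂ, Cm n) ω Y] in
theorem κ_ne (y : Y) : H.x y (H.κ y) ≠ 0 := (H.ne y).choose_spec

variable {H} {t a b : ℕ}

/-- the value at `y`, homogeneous of degree `-t` in the representative -/
def hv (v : H.A t) (e : Chart n Y) (y : Y) : Fo n :=
  (H.x y (H.κ y) ^ t)⁻¹ • vl (v.1 (H.κ y)) e (e y)

theorem vl_eq (v : H.A t) (he : At e y) (i : I) : vl (v.1 i) e (e y) = H.x y i ^ t • hv v e y := by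
  rw [hv, smul_comm, ← v.2.2 e y he i (H.κ y), smul_smul, inv_mul_cancel₀ (pow_ne_zero _ (H.κ_ne y)),
    one_smul]

theorem hv_eq (v : H.A t) (he : At e y) {k : I} (hk : H.x y k ≠ 0) :
    hv v e y = (H.x y k ^ t)⁻¹ • vl (v.1 k) e (e y) := by
  rw [vl_eq v he, smul_smul, inv_mul_cancel₀ (pow_ne_zero _ hk), one_smul]

theorem hv_add (v w : H.A t) (e : Chart n Y) (y : Y) : hv (v + w) e y = hv v e y + hv w e y :=
  smul_add _ _ _

theorem hv_smul (c : ℂ) (v : H.A t) (e : Chart n Y) (y : Y) : hv (c • v) e y = c • hv v e y :=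
  smul_comm (H.x y (H.κ y) ^ t)⁻¹ c (vl (v.1 (H.κ y)) e (e y))

theorem hv_zero (e : Chart n Y) (y : Y) : hv (0 : H.A t) e y = 0 := smul_zero _

theorem hv_neg (v : H.A t) (e : Chart n Y) (y : Y) : hv (-v) e y = -hv v e y := smul_neg _ _

theorem hv_sub (v w : H.A t) (e : Chart n Y) (y : Y) : hv (v - w) e y = hv v e y - hv w e y :=
  smul_sub _ _ _

theorem hv_sum {ι : Type*} (s : Finset ι) (v : ι → H.A t) (e : Chart n Y) (y : Y) :
    hv (∑ i ∈ s, v i) e y = ∑ i ∈ s, hv (v i) e y := by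
  classical
  induction s using Finset.induction_on with
  | empty => exact hv_zero e y
  | insert a s ha ih => rw [Finset.sum_insert ha, Finset.sum_insert ha, hv_add, ih]

theorem hv_ext {v w : H.A t} (h : ∀ e y, At e y → hv v e y = hv w e y) : v = w :=
  Subtype.ext (funext fun i => ext' fun e y he => by rw [vl_eq v he, vl_eq w he, h e y he])

theorem hv_ch (v : H.A t) {e' : Chart n Y} (he : At e y) (he' : At e' y) :
    hv v e y = lam (jt e e' y) *ᵥ hv v e' y := by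
  rw [hv, hv, Matrix.mulVec_smul, (vl_isF _).ch e e' y he he']

theorem hv_ty (v : H.A t) (he : At e y) : pm n 0 *ᵥ hv v e y = hv v e y := by
  rw [hv, Matrix.mulVec_smul, ← ty_vl 0 _ e y he, v.2.1]

theorem hv_sm (v : H.A t) (he : At e y) (k : I) :
    ContDiffAt ℝ ∞ (fun z => H.x (e.symm z) k ^ t • hv v e (e.symm z)) (e y) :=
  ((vl_isF (v.1 k)).sm e y he).congr_of_eventuallyEq (ev_at he (.of_forall fun x hx => by
    show H.x (e.symm (e x)) k ^ t • hv v e (e.symm (e x)) = _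
    rw [e.left_inv hx.2, vl_eq v hx]))

/-- construction of twisted forms from their homogeneous values -/
theorem ex_A (t : ℕ) (w : Chart n Y → Y → Fo n)
    (h1 : ∀ e y, At e y → ∃ k, H.x y k ≠ 0 ∧
      ContDiffAt ℝ ∞ (fun z => H.x (e.symm z) k ^ t • w e (e.symm z)) (e y))
    (h2 : ∀ e e' y, At e y → At e' y → w e y = lam (jt e e' y) *ᵥ w e' y)
    (h3 : ∀ e y, At e y → pm n 0 *ᵥ w e y = w e y) :
    ∃ v : H.A t, ∀ e y, At e y → hv v e y = w e y := by
  have h4 : ∀ i, ∃ u : SF n Y, ∀ e y, At e y → vl u e (e y) = H.x y i ^ t • w e y := fun i => by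
    obtain ⟨u, hu⟩ := mkf (fun e z => H.x (e.symm z) i ^ t • w e (e.symm z)) (fun e y he => by
      obtain ⟨k, hk, h⟩ := h1 e y he
      refine ((((smt_of_hol (H.hol y k hk i)).pow t) e he).fun_smul h).congr_of_eventuallyEq ?_
      filter_upwards [ev_symm he (H.near hk)] with z hz
      rw [smul_smul, ← mul_pow, div_mul_cancel₀ _ hz]) fun e e' y he he' => by
      rw [e.left_inv he.2, e'.left_inv he'.2, Matrix.mulVec_smul, ← h2 e e' y he he']
    exact ⟨u, fun e y he => by rw [hu e he.1 _ (e.map_source he.2), e.left_inv he.2]⟩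
  choose u hu using h4
  refine ⟨⟨u, fun i => ext' fun e y he => ?_, fun e y he i j => ?_⟩, fun e y he => ?_⟩
  · rw [ty_vl 0 _ e y he, hu i e y he, Matrix.mulVec_smul, h3 e y he]
  · rw [hu i e y he, hu j e y he, smul_comm]
  · rw [hv, hu _ e y he, smul_smul, inv_mul_cancel₀ (pow_ne_zero _ (H.κ_ne y)), one_smul]

theorem ex_mul {m : ℤ} {F : Y → ℂ} (hF : H.Hs m F) (h : (a : ℤ) = b + m) :
    ∃ T : H.A a →ₗ[ℂ] H.A b, ∀ v e y, At e y → hv (T v) e y = F y • hv v e y := by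
  have h1 : ∀ v : H.A a, ∃ w : H.A b, ∀ e y, At e y → hv w e y = F y • hv v e y := fun v =>
    ex_A b (fun e y => F y • hv v e y) (fun e y he => ⟨_, H.κ_ne y, by
      refine ((hF y _ (H.κ_ne y) e he).fun_smul (hv_sm v he (H.κ y))).congr_of_eventuallyEq ?_
      filter_upwards [ev_symm he (H.near (H.κ_ne y))] with z hz
      rw [smul_smul, smul_smul, ← zpow_natCast _ a, h, zpow_add₀ hz, zpow_natCast]
      congr 1
      have := zpow_ne_zero m hz
      field_simp⟩)
      (fun e e' y he he' => by rw [Matrix.mulVec_smul, ← hv_ch v he he'])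
      fun e y he => by rw [Matrix.mulVec_smul, hv_ty v he]
  choose T hT using h1
  refine ⟨⟨⟨T, fun u v => hv_ext fun e y he => ?_⟩, fun c u => hv_ext fun e y he => ?_⟩, hT⟩
  · rw [hv_add, hT _ e y he, hT _ e y he, hT _ e y he, hv_add, smul_add]
  · rw [hv_smul, hT _ e y he, hT _ e y he, hv_smul, smul_comm, RingHom.id_apply]

/-- multiplication by a smooth section of `O(m)`, from `O(-a)` to `O(-b)`, `a = b + m` -/
def mul {m : ℤ} {F : Y → ℂ} (hF : H.Hs m F) (h : (a : ℤ) = b + m) : H.A a →ₗ[ℂ] H.A b :=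
  (ex_mul hF h).choose

theorem hv_mul {m : ℤ} {F : Y → ℂ} (hF : H.Hs m F) (h : (a : ℤ) = b + m) (v : H.A a)
    (he : At e y) : hv (mul hF h v) e y = F y • hv v e y := (ex_mul hF h).choose_spec v e y he

end HC

variable [IsManifold 𝓘(ℂ, Cm n) ω Y]

/-- delbar is linear over the holomorphic functions -/
theorem dlb_hol {u w : SF n Y} {g : Y → ℂ} (hg : Hol n g y) (he : At e y)
    (h : ∀ᶠ x in 𝓝 y, At e x → vl w e (e x) = g x • vl u e (e x)) :
    vl (dlb n Y w) e (e y) = g y • vl (dlb n Y u) e (e y) := by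
  have h1 : vl w e =ᶠ[𝓝 (e y)] fun z => g (e.symm z) • vl u e z :=
    ev_at he (h.mono fun x hx hx' => by
      show _ = g (e.symm (e x)) • _
      rw [e.left_inv hx'.2, hx hx'])
  have h2 := (hg e he).differentiableAt
  rw [dlb_vl _ he, dlb_vl _ he, Finset.smul_sum]
  refine Finset.sum_congr rfl fun j _ => ?_
  rw [Ka.Dv_congr h1, Ka.Dv_fmul (h2.restrictScalars ℝ) (dif u he), Ka.dr_ah, Kb.dzb_hol h2,
    zero_smul, zero_add, e.left_inv he.2, Matrix.mulVec_smul]

theorem gl_dlb (c : ℕ → ℂ) (u : SF n Y) :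
    gl n Y c (dlb n Y u) = dlb n Y (gl n Y (fun q => c (q + 1)) u) := by
  simp only [dlb, LinearMap.sub_apply, map_sub, gl_dd, gl_del]

namespace HC

variable (H : HC n Y I) (t : ℕ)

/-- delbar on twisted forms -/
def D : Module.End ℂ (H.A t) :=
  ((dlb n Y).compLeft I).restrict fun v hv => ⟨fun i => (ty_dlb 0 _).trans (congrArg _ (hv.1 i)),
    fun e y he i j => by
      have h : ∀ i, vl (dlb n Y (v i)) e (e y) = (H.x y i / H.x y (H.κ y)) ^ t •
          vl (dlb n Y (v (H.κ y))) e (e y) := fun i =>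
        dlb_hol (g := fun x => (H.x x i / H.x x (H.κ y)) ^ t)
          (fun e he => (H.hol y _ (H.κ_ne y) i e he).fun_pow t) he
          ((H.near (H.κ_ne y)).mono fun x hx hx' => by
            rw [vl_eq ⟨v, hv⟩ hx', vl_eq ⟨v, hv⟩ hx', smul_smul, ← mul_pow, div_mul_cancel₀ _ hx])
      show _ • vl (dlb n Y (v i)) e (e y) = _ • vl (dlb n Y (v j)) e (e y)
      rw [h i, h j, smul_smul, smul_smul, ← mul_pow, ← mul_pow, ← mul_div_assoc,
        ← mul_div_assoc, mul_comm]⟩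

/-- functions of the degree on twisted forms -/
def G (c : ℕ → ℂ) : Module.End ℂ (H.A t) :=
  ((gl n Y c).compLeft I).restrict fun v hv => ⟨fun i => (gl_ty c 0 _).symm.trans
    (congrArg _ (hv.1 i)), fun e y he i j => by
      show _ • vl (gl n Y c (v i)) e (e y) = _ • vl (gl n Y c (v j)) e (e y)
      rw [gl_vl _ _ he, gl_vl _ _ he, ← Matrix.mulVec_smul, ← Matrix.mulVec_smul,
        hv.2 e y he i j]⟩

/-- the parity -/
def σ : Module.End ℂ (H.A t) := H.G t fun q => (-1) ^ q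

variable {H t} {a b : ℕ}

theorem D_val (v : H.A t) (i : I) : (H.D t v).1 i = dlb n Y (v.1 i) := rfl

theorem G_val (c : ℕ → ℂ) (v : H.A t) (i : I) : (H.G t c v).1 i = gl n Y c (v.1 i) := rfl

theorem σ_val (v : H.A t) (i : I) : (H.σ t v).1 i = pr n Y (v.1 i) := rfl

theorem D_D (v : H.A t) : H.D t (H.D t v) = 0 := Subtype.ext (funext fun _ => dlb_dlb _)

theorem σ_σ (v : H.A t) : H.σ t (H.σ t v) = v := Subtype.ext (funext fun _ => pr_pr _)

theorem D_σ (v : H.A t) : H.D t (H.σ t v) = -H.σ t (H.D t v) :=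
  Subtype.ext (funext fun _ => dlb_pr _)

theorem G_D (c : ℕ → ℂ) (v : H.A t) :
    H.G t c (H.D t v) = H.D t (H.G t (fun q => c (q + 1)) v) :=
  Subtype.ext (funext fun _ => gl_dlb c _)

theorem hv_G (c : ℕ → ℂ) (v : H.A t) (he : At e y) : hv (H.G t c v) e y = dgl c *ᵥ hv v e y := by
  rw [hv, hv, G_val, gl_vl _ _ he, Matrix.mulVec_smul]

theorem hv_σ (v : H.A t) (he : At e y) : hv (H.σ t v) e y = par *ᵥ hv v e y := hv_G _ v he

theorem G_mul {m : ℤ} {F : Y → ℂ} (hF : H.Hs m F) (h : (a : ℤ) = b + m) (c : ℕ → ℂ) (v : H.A a) :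
    H.G b c (mul hF h v) = mul hF h (H.G a c v) := hv_ext fun e y he => by
  rw [hv_G _ _ he, hv_mul _ _ _ he, hv_mul _ _ _ he, hv_G _ _ he, Matrix.mulVec_smul]

theorem σ_mul {m : ℤ} {F : Y → ℂ} (hF : H.Hs m F) (h : (a : ℤ) = b + m) (v : H.A a) :
    H.σ b (mul hF h v) = mul hF h (H.σ a v) := G_mul hF h _ v

/-- a local form of `D_mul` -/
theorem hv_D_of {m : ℤ} {F : Y → ℂ} {k : I} (hk : H.x y k ≠ 0)
    (hF : Hol n (fun x => F x / H.x x k ^ m) y) (h : (a : ℤ) = b + m) {v : H.A a} {w : H.A b}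
    (he : At e y) (hw : ∀ᶠ x in 𝓝 y, At e x → hv w e x = F x • hv v e x) :
    hv (H.D b w) e y = F y • hv (H.D a v) e y := by
  have k1 : ∀ x, H.x x k ≠ 0 → H.x x k ^ b * F x = F x / H.x x k ^ m * H.x x k ^ a := fun x hx => by
    have := zpow_ne_zero m hx
    rw [← zpow_natCast _ a, h, zpow_add₀ hx, zpow_natCast]
    field_simp
  rw [hv_eq _ he hk, D_val, dlb_hol (u := v.1 k) hF he ((hw.and (H.near hk)).mono fun x hx hx' => by
    rw [vl_eq w hx', vl_eq v hx', hx.1 hx', smul_smul, smul_smul, k1 x hx.2]), ← D_val,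
    vl_eq _ he, smul_smul, smul_smul, mul_assoc, ← k1 y hk, ← mul_assoc,
    inv_mul_cancel₀ (pow_ne_zero _ hk), one_mul]

theorem D_mul {m : ℤ} {F : Y → ℂ} (hF : H.Hh m F) (h : (a : ℤ) = b + m) (v : H.A a) :
    H.D b (mul hF.hs h v) = mul hF.hs h (H.D a v) := hv_ext fun e y he => by
  rw [hv_mul _ _ _ he]
  exact hv_D_of (H.κ_ne y) (hF y _ (H.κ_ne y)) h he (.of_forall fun _ hx => hv_mul _ _ _ hx)

end HC

end Vale.Agent.P269HK
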