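import Vale.Agent.P269HK.Main
import Vale.Agent.P269HW.Kos

/-!
# P269, block H: the rows KOS and PAS
-/

namespace Vale.Agent.P269HK

open Vale.Agent.P269HW Vale.Agent.P269HP

theorem kz : KZ := fun _ _ _ _ _ _ _ _ _ _ _ _ _ _ _ _ _ _ _ _ _ _ h t hf => h.koszul t hf

theorem pc : PC := fun _ _ _ _ _ _ _ _ _ _ _ _ _ _ _ _ _ _ _ _ _ h t h1 h2 => (pascal h t h1 h2).1

theorem kos : KOS := kos_of kz

theorem pas : PAS := pas_of kz pc

end Vale.Agent.P269HK
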