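import Vale.Agent.P269HK.Tw

/-!
# P269, block H: germs and restriction of twisted forms
-/

open scoped Manifold ContDiff Topology Matrix
open Filter Metric
open Vale.Agent.P272.K Vale.Agent.P272.K.C2 Vale.Agent.P272.K.INT Vale.Agent.P299.IX
  Vale.Agent.P299.IX.Fock Vale.Agent.P281Z.Hg Vale.Agent.P281Z.Hg.G1H Vale.Agent.P281Z.Hg.G2H
  Vale.Agent.P275MC Vale.Agent.P275FM
open Vale.Agent.P281Z.Hg.Pb1H (ca)
open Vale.Agent.P275AR (ty ty_vl gl gl_vl pb_gl pb_ty Nb mem_Nb Nb_ev ex_cut)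
open Vale.Agent.P277Z (Hol)
open Vale.Agent.P281Z (HolM)
open Vale.Agent.P280Z.Pu (smo_of hl_of)

noncomputable section

namespace Vale.Agent.P269HK

variable {n : ℕ} {Y : Type} [TopologicalSpace Y] [ChartedSpace (Cm n) Y] {I : Type}
  {e : Chart n Y} {y : Y} [IsManifold 𝓘(ℂ, Cm n) ω Y]

theorem dlb_Nb {u : SF n Y} (h : u ∈ Nb y) : dlb n Y u ∈ Nb y :=
  (Nb_ev h).mono fun x hx e he => by
    have h1 := dlb_hol (u := u) (w := u) (g := fun _ => 0) (fun _ _ => analyticAt_const) he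
      (Eventually.mono hx fun x' h1 h2 => by rw [h1 e h2, smul_zero])
    rwa [zero_smul] at h1

theorem ex_glob {E F : Type} [NormedAddCommGroup E] [NormedSpace ℝ E] [FiniteDimensional ℝ E]
    [NormedAddCommGroup F] [NormedSpace ℝ F] {V : E → F} {p : E} {O : Set E} (hO : O ∈ 𝓝 p)
    (h : ∀ᶠ z in 𝓝 p, ContDiffAt ℝ ∞ V z) : ∃ (W : E → F) (K : Set E), ContDiff ℝ ∞ W ∧
      W =ᶠ[𝓝 p] V ∧ IsCompact K ∧ K ⊆ O ∧ ∀ z, z ∉ K → W z = 0 := by
  obtain ⟨r, hr, h2⟩ := Metric.eventually_nhds_iff_ball.1 (h.and hO)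
  let χ : ContDiffBump p := ⟨r / 4, r / 2, by positivity, by linarith⟩
  have h0 : ∀ z, z ∉ closedBall p (r / 2) → χ z • V z = 0 := fun z hz => by
    rw [χ.zero_of_le_dist (le_of_lt (not_le.1 hz)), zero_smul]
  refine ⟨fun z => χ z • V z, closedBall p (r / 2), contDiff_iff_contDiffAt.2 fun z => ?_, ?_,
    isCompact_closedBall _ _, fun z hz => (h2 z (closedBall_subset_ball (by linarith) hz)).2, h0⟩
  · by_cases hz : z ∈ closedBall p (r / 2)
    · exact χ.contDiffAt.smul (h2 z (closedBall_subset_ball (by linarith) hz)).1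
    · exact (contDiffAt_const (c := (0 : F))).congr_of_eventuallyEq
        (mem_of_superset (isClosed_closedBall.isOpen_compl.mem_nhds hz) h0)
  · filter_upwards [closedBall_mem_nhds p (by positivity : 0 < r / 4)] with z hz
    rw [χ.one_of_mem_closedBall hz, one_smul]

/-- germs of forms are represented by global forms with small support -/
theorem ex_germ [T2Space Y] (he : At e y) {O : Set Y} (hO : O ∈ 𝓝 y) {V : Cm n → Fo n}
    (h : ∀ᶠ z in 𝓝 (e y), ContDiffAt ℝ ∞ V z) :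
    ∃ s : SF n Y, (∀ᶠ x in 𝓝 y, vl s e (e x) = V (e x)) ∧ ∀ x, x ∉ O → s ∈ Nb x := by
  obtain ⟨W, K, h1, h2, h3, h4, h5⟩ := ex_glob
    (inter_mem (e.open_target.mem_nhds (e.map_source he.2)) (ev_symm he hO)) h
  have h6 : IsCompact (e.symm '' K) :=
    h3.image_of_continuousOn (e.continuousOn_symm.mono fun z hz => (h4 hz).1)
  obtain ⟨s, s1, s2⟩ := loc k1b' e (e.symm '' K) W he.1 h6
    (by rintro _ ⟨z, hz, rfl⟩; exact e.map_target (h4 hz).1) h1.contDiffOn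
    fun z hz hz' => h5 z fun k => hz' ⟨_, ⟨z, k, rfl⟩, e.right_inv hz⟩
  refine ⟨s, ?_, fun x hx => mem_of_superset (h6.isClosed.isOpen_compl.mem_nhds ?_) s2⟩
  · filter_upwards [e.open_source.mem_nhds he.2, (e.continuousAt he.2).eventually h2] with x a b
    rw [s1 _ (e.map_source a), b]
  · rintro ⟨z, hz, rfl⟩
    exact hx (h4 hz).2

namespace HC

variable {H : HC n Y I} {t a b : ℕ}

/-- twisted forms which vanish near `y` -/
def NA (y : Y) : Submodule ℂ (H.A t) where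
  carrier := {v | ∀ᶠ x in 𝓝 y, ∀ e, At e x → hv v e x = 0}
  add_mem' ha hb := (ha.and hb).mono fun _ h e he => by rw [hv_add, h.1 e he, h.2 e he, add_zero]
  zero_mem' := .of_forall fun x e _ => hv_zero e x
  smul_mem' c _ ha := ha.mono fun _ h e he => by rw [hv_smul, h e he, smul_zero]

variable {v : H.A t}

theorem mem_NA : v ∈ NA y ↔ ∀ᶠ x in 𝓝 y, ∀ e, At e x → hv v e x = 0 := Iff.rfl

theorem NA_ev (h : v ∈ NA y) : ∀ᶠ x in 𝓝 y, v ∈ NA x := eventually_eventually_nhds.2 h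

theorem NA_sep (h : ∀ y, v ∈ NA y) : v = 0 :=
  hv_ext fun e y he => ((mem_NA.1 (h y)).self_of_nhds e he).trans (hv_zero e y).symm

theorem NA_val (h : v ∈ NA y) (i : I) : v.1 i ∈ Nb y :=
  (mem_NA.1 h).mono fun _ hx e he => by rw [vl_eq v he, hx e he, smul_zero]

theorem NA_of_val {k : I} (hk : H.x y k ≠ 0) (h : v.1 k ∈ Nb y) : v ∈ NA y :=
  ((mem_Nb.1 h).and (H.near hk)).mono fun _ hx e he => by
    rw [hv_eq v he hx.2, hx.1 e he, smul_zero]

theorem NA_of_chart (he : At e y) (h : ∀ᶠ x in 𝓝 y, At e x → hv v e x = 0) : v ∈ NA y :=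
  (h.and (e.open_source.mem_nhds he.2)).mono fun _ hx e' he' => by
    rw [hv_ch v he' ⟨he.1, hx.2⟩, hx.1 ⟨he.1, hx.2⟩, Matrix.mulVec_zero]

theorem D_NA (h : v ∈ NA y) : H.D t v ∈ NA y := NA_of_val (H.κ_ne y) (dlb_Nb (NA_val h _))

theorem G_NA (c : ℕ → ℂ) (h : v ∈ NA y) : H.G t c v ∈ NA y :=
  (mem_NA.1 h).mono fun _ hx e he => by rw [hv_G _ _ he, hx e he, Matrix.mulVec_zero]

theorem mul_NA {m : ℤ} {F : Y → ℂ} (hF : H.Hs m F) (h : (a : ℤ) = b + m) {v : H.A a}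
    (hv : v ∈ NA y) : mul hF h v ∈ NA y :=
  (mem_NA.1 hv).mono fun _ hx e he => by rw [hv_mul _ _ _ he, hx e he, smul_zero]

/-- germs of twisted forms -/
theorem ex_germA [T2Space Y] (t : ℕ) (he : At e y) {k : I} (hk : H.x y k ≠ 0) {V : Cm n → Fo n}
    (h : ∀ᶠ z in 𝓝 (e y), ContDiffAt ℝ ∞ V z) (h0 : ∀ᶠ z in 𝓝 (e y), pm n 0 *ᵥ V z = V z) :
    ∃ v : H.A t, ∀ᶠ x in 𝓝 y, vl (v.1 k) e (e x) = V (e x) := by
  obtain ⟨s, s1, s2⟩ := ex_germ he (H.near hk) h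
  obtain ⟨v, hv⟩ := ex_A (H := H) t (fun e x => (H.x x k ^ t)⁻¹ • vl (ty n Y 0 s) e (e x))
    (fun e x he => by
      by_cases hx : H.x x k = 0
      · refine ⟨_, H.κ_ne x, (contDiffAt_const (c := (0 : Fo n))).congr_of_eventuallyEq
          (ev_at he ((mem_Nb.1 (s2 x (not_not.2 hx))).mono fun x' h1 h2 => ?_))⟩
        show _ • _ • vl _ e (e (e.symm (e x'))) = 0
        rw [e.left_inv h2.2, ty_vl 0 _ e x' h2, h1 e h2, Matrix.mulVec_zero, smul_zero, smul_zero]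
      · refine ⟨k, hx, ((vl_isF (ty n Y 0 s)).sm e x he).congr_of_eventuallyEq
          (ev_at he ((H.near hx).mono fun x' h1 h2 => ?_))⟩
        show H.x (e.symm (e x')) k ^ t • (H.x (e.symm (e x')) k ^ t)⁻¹ •
          vl _ e (e (e.symm (e x'))) = _
        rw [e.left_inv h2.2, smul_smul, mul_inv_cancel₀ (pow_ne_zero _ h1), one_smul])
    (fun e e' x he he' => by rw [Matrix.mulVec_smul, ← (vl_isF _).ch e e' x he he'])
    fun e x he => by
      rw [Matrix.mulVec_smul, ← ty_vl 0 _ e x he, gr_ty.idem]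
  refine ⟨v, ?_⟩
  filter_upwards [s1, H.near hk, e.open_source.mem_nhds he.2,
    (e.continuousAt he.2).eventually h0] with x h1 h2 h3 h4
  rw [vl_eq v ⟨he.1, h3⟩, hv e x ⟨he.1, h3⟩, smul_smul, mul_inv_cancel₀ (pow_ne_zero _ h2),
    one_smul, ty_vl 0 _ e x ⟨he.1, h3⟩, h1, h4]

theorem ex_cutA [T2Space Y] [CompactSpace Y] {K L : Set Y} (hK : IsClosed K)
    (hL : IsClosed L) (h : Disjoint K L) : ∃ ρ : Y → ℂ, (∀ y, Smt n ρ y) ∧
      (∀ x ∈ K, ∀ᶠ y in 𝓝 x, ρ y = 1) ∧ ∀ x ∈ L, ∀ᶠ y in 𝓝 x, ρ y = 0 := by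
  obtain ⟨ρ, h1, h2, h3⟩ := ex_cut (d := n) hK hL h
  exact ⟨fun y => ρ y, fun y e he => Complex.ofRealCLM.contDiff.contDiffAt.comp _ (h1 e y he),
    fun x hx => (h2 x hx).mono fun _ h => by simp only [h, Complex.ofReal_one],
    fun x hx => (h3 x hx).mono fun _ h => by simp only [h, Complex.ofReal_zero]⟩

end HC

variable {r : ℕ} {M : Type} [TopologicalSpace M] [ChartedSpace (Cm r) M] {I' : Type}
  [IsManifold 𝓘(ℂ, Cm r) ω M]

/-- `ι` is holomorphic and `x_i ↦ μ x_i ∘ ι` identifies `ι^* O(1)` with `O(1)` -/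
structure Cmp (H' : HC r M I') (H : HC n Y I) (ι : M → Y) (μ : M → ℂ) : Prop where
  hol : HolM r n ι
  ne : ∀ m, μ m ≠ 0
  hh : ∀ i, H'.Hh 1 fun m => μ m * H.x (ι m) i

theorem smt_comp {ι : M → Y} (h : HolM r n ι) {g : Y → ℂ} {m : M} (hg : Smt n g (ι m)) :
    Smt r (fun x => g (ι x)) m := fun e he => by
  have h1 := ContDiffAt.comp (g := fun z => g ((chartAt (Cm n) (ι m)).symm z)) (e m)
    (by rw [e.left_inv he.2]; exact hg _ (ca _)) ((smo_of h).sm e _ m he (ca _))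
  refine h1.congr_of_eventuallyEq ?_
  filter_upwards [Pb1H.near (smo_of h).cont he (ca (d := n) (ι m))] with z hz
  exact congrArg g ((chartAt (Cm n) (ι m)).left_inv hz.2.2.2).symm

namespace Cmp

open HC

variable {H' : HC r M I'} {H : HC n Y I} {ι : M → Y} {μ : M → ℂ} (h : Cmp H' H ι μ) {t : ℕ}
  {e : Chart r M} {m : M}
include h

theorem cont : Continuous ι := (smo_of h.hol).cont

theorem near {i : I} (hi : H.x (ι m) i ≠ 0) : ∀ᶠ x in 𝓝 m, H.x (ι x) i ≠ 0 :=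
  h.cont.continuousAt.eventually (H.near hi)

theorem pb_val (v : H.A t) (he : At e m) (i : I) {c : Chart n Y} (hc : At c (ι m)) :
    vl (pb (smo_of h.hol) (v.1 i)) e (e m) = H.x (ι m) i ^ t •
      (lr (jc (fun z => c (ι (e.symm z))) (e m)) *ᵥ hv v c (ι m)) := by
  rw [pb_vl _ _ e c m he hc, vl_eq v hc, Matrix.mulVec_smul]

omit [IsManifold 𝓘(ℂ, Cm n) ω Y] [IsManifold 𝓘(ℂ, Cm r) ω M] in
theorem hol_inv {i : I} (hi : H.x (ι m) i ≠ 0) {k : I'} (hk : H'.x m k ≠ 0) (t : ℕ) :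
    Hol r (fun x => (H'.x x k / (μ x * H.x (ι x) i)) ^ t) m := fun e he => by
  have h1 := ((h.hh i m k hk e he).fun_inv (by
    rw [e.left_inv he.2]
    exact div_ne_zero (mul_ne_zero (h.ne m) hi) (zpow_ne_zero _ hk))).fun_pow t
  simpa only [zpow_one, inv_div] using h1

theorem ex_res (t : ℕ) : ∃ R : H.A t →ₗ[ℂ] H'.A t, ∀ v e m c, At e m → At c (ι m) →
    hv (R v) e m = (μ m ^ t)⁻¹ • (lr (jc (fun z => c (ι (e.symm z))) (e m)) *ᵥ hv v c (ι m)) := by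
  have h0 : ∀ (v : H.A t) e m, At e m → ∀ i, H.x (ι m) i ≠ 0 →
      ((μ m * H.x (ι m) (H.κ (ι m))) ^ t)⁻¹ • vl (pb (smo_of h.hol) (v.1 (H.κ (ι m)))) e (e m) =
      ((μ m * H.x (ι m) i) ^ t)⁻¹ • vl (pb (smo_of h.hol) (v.1 i)) e (e m) := fun v e m he i hi => by
    have := H.κ_ne (ι m)
    have := h.ne m
    rw [h.pb_val v he _ (ca _), h.pb_val v he _ (ca _), smul_smul, smul_smul, mul_pow, mul_pow]
    congr 1
    field_simp
  have h1 : ∀ v : H.A t, ∃ w : H'.A t, ∀ e m, At e m → hv w e m =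
      ((μ m * H.x (ι m) (H.κ (ι m))) ^ t)⁻¹ • vl (pb (smo_of h.hol) (v.1 (H.κ (ι m)))) e (e m) :=
    fun v => ex_A t _ (fun e m he => ⟨_, H'.κ_ne m, by
      refine ((smt_of_hol (h.hol_inv (H.κ_ne (ι m)) (H'.κ_ne m) t) e he).fun_smul
        ((vl_isF (pb (smo_of h.hol) (v.1 (H.κ (ι m))))).sm e m he)).congr_of_eventuallyEq
          (ev_at he ((h.near (H.κ_ne (ι m))).mono fun x hx hx' => ?_))
      simp only [e.left_inv hx'.2]
      rw [h0 v e x hx' _ hx, smul_smul, div_pow, div_eq_mul_inv]⟩)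
      (fun e e' m he he' => by rw [Matrix.mulVec_smul, ← (vl_isF _).ch e e' m he he'])
      fun e m he => by rw [Matrix.mulVec_smul, ← ty_vl 0 _ e m he, ← pb_ty h.hol, v.2.1]
  choose R hR using h1
  refine ⟨⟨⟨R, fun u v => hv_ext fun e m he => ?_⟩, fun c u => hv_ext fun e m he => ?_⟩,
    fun v e m c he hc => ?_⟩
  · rw [hv_add, hR _ e m he, hR _ e m he, hR _ e m he, ← smul_add, ← vl_add, ← map_add]
    rfl
  · rw [hv_smul, hR _ e m he, hR _ e m he, smul_comm, RingHom.id_apply, ← vl_smul c, ← map_smul]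
    rfl
  · have := H.κ_ne (ι m)
    have := h.ne m
    refine (hR v e m he).trans ?_
    rw [h.pb_val v he _ hc, smul_smul, mul_pow]
    congr 1
    field_simp

/-- the restriction of twisted forms -/
def res (t : ℕ) : H.A t →ₗ[ℂ] H'.A t := (h.ex_res t).choose

theorem hv_res (v : H.A t) (he : At e m) {c : Chart n Y} (hc : At c (ι m)) :
    hv (h.res t v) e m =
      (μ m ^ t)⁻¹ • (lr (jc (fun z => c (ι (e.symm z))) (e m)) *ᵥ hv v c (ι m)) :=
  (h.ex_res t).choose_spec v e m c he hc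

theorem res_vl (v : H.A t) (he : At e m) (i : I) :
    (μ m * H.x (ι m) i) ^ t • hv (h.res t v) e m = vl (pb (smo_of h.hol) (v.1 i)) e (e m) := by
  have := h.ne m
  rw [h.hv_res v he (ca _), h.pb_val v he _ (ca _), smul_smul, mul_pow]
  congr 1
  field_simp

theorem res_G (c : ℕ → ℂ) (v : H.A t) : h.res t (H.G t c v) = H'.G t c (h.res t v) :=
  hv_ext fun e m he => by
    rw [hv_G _ _ he, h.hv_res _ he (ca _), h.hv_res _ he (ca _), hv_G _ _ (ca _),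
      Matrix.mulVec_smul, Matrix.mulVec_mulVec, Matrix.mulVec_mulVec, F1aH.dgl_lr]

theorem res_D (v : H.A t) : h.res t (H.D t v) = H'.D t (h.res t v) := hv_ext fun e m he => by
  have hi := H.κ_ne (ι m)
  have hk := H'.κ_ne m
  have h1 : ∀ (v : H.A t) x, At e x → H.x (ι x) (H.κ (ι m)) ≠ 0 →
      vl ((h.res t v).1 (H'.κ m)) e (e x) = (H'.x x (H'.κ m) / (μ x * H.x (ι x) (H.κ (ι m)))) ^ t •
        vl (pb (smo_of h.hol) (v.1 (H.κ (ι m)))) e (e x) := fun v x hx hx' => by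
    rw [vl_eq _ hx, ← h.res_vl v hx, smul_smul, ← mul_pow,
      div_mul_cancel₀ _ (mul_ne_zero (h.ne x) hx')]
  rw [hv_eq _ he hk, hv_eq _ he hk, D_val, h1 _ m he hi, D_val, pb_dlb h.hol,
    dlb_hol (h.hol_inv hi hk t) he ((h.near hi).mono fun x hx hx' => h1 v x hx' hx)]

theorem res_NA {v : H.A t} (hv : v ∈ NA (ι m)) : h.res t v ∈ NA m :=
  (h.cont.continuousAt.eventually (mem_NA.1 hv)).mono fun x hx e he => by
    rw [h.hv_res _ he (ca _), hx _ (ca _), Matrix.mulVec_zero, smul_zero]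

theorem res_mul_zero {a : ℕ} {d : ℤ} {F : Y → ℂ} (hF : H.Hs d F) (k : (a : ℤ) = t + d)
    (h0 : ∀ m, F (ι m) = 0) (v : H.A a) : h.res t (mul hF k v) = 0 := hv_ext fun e m he => by
  rw [h.hv_res _ he (ca _), hv_mul _ _ _ (ca _), h0, zero_smul, Matrix.mulVec_zero, smul_zero,
    hv_zero]

theorem res_mul {F : Y → ℂ} (hF : H.Hs 0 F) (hF' : H'.Hs 0 fun m => F (ι m))
    (k : (t : ℤ) = t + 0) (v : H.A t) : h.res t (mul hF k v) = mul hF' k (h.res t v) :=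
  hv_ext fun e m he => by
    rw [h.hv_res _ he (ca _), hv_mul _ _ _ (ca _), hv_mul _ _ _ he, h.hv_res _ he (ca _),
      Matrix.mulVec_smul, smul_comm]

end Cmp

end Vale.Agent.P269HK
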