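import Vale.Agent.P269HK.Kron
import Vale.Agent.P269HK.Res

/-!
# P269, block H: local exactness of the Koszul-Dolbeault cone in a chart
-/

open scoped ContDiff Topology Matrix
open Filter Set Function
open Vale.Agent.P272.K Vale.Agent.P299.IX Vale.Agent.P299.IX.Fock Vale.Agent.P281Z.Hg
  Vale.Agent.P281Z.Hg.Ka Vale.Agent.P281Z.Hg.G2H
open Vale.Agent.P280Z.Pu (pm_jc)

noncomputable section

namespace Vale.Agent.P269HK

variable {a b c : ℕ} {φ : Cm a → Cm b} {z : Cm a} {u : Cm b → Fo b}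

theorem an_sm (h : ContDiffAt ℂ ω φ z) : ContDiffAt ℝ ∞ φ z := (h.restrict_scalars ℝ).of_le le_top

theorem an_df (h : ContDiffAt ℂ ω φ z) : DifferentiableAt ℝ φ z :=
  (an_sm h).differentiableAt (by simp)

theorem db_eq {u : Cm a → Fo a} (hu : DifferentiableAt ℝ u z)
    (h : ∀ᶠ y in 𝓝 z, pm a 0 *ᵥ u y = u y) : db u z = pm a 0 *ᵥ dT u z := by
  rw [← db_congr h, db_pm hu, dT, sum_idx, Matrix.mulVec_add, db, Matrix.mulVec_sum _ _
    (fun j => eps (hl j) *ᵥ Dv (hl j) u z)]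
  simp only [Matrix.mulVec_mulVec, f1b.pm0_hl, Matrix.zero_mulVec, Finset.sum_const_zero, zero_add]

theorem pbk_ty (hφ : ContDiffAt ℂ ω φ z) (h : pm b 0 *ᵥ u (φ z) = u (φ z)) :
    pm a 0 *ᵥ pbk φ u z = pbk φ u z := by
  rw [pbk, pm_jc (hφ.differentiableAt (by simp)), h]

theorem db_pbk (hφ : ContDiffAt ℂ ω φ z) (hu : ContDiffAt ℝ ∞ u (φ z))
    (h : ∀ᶠ y in 𝓝 (φ z), pm b 0 *ᵥ u y = u y) : db (pbk φ u) z = pbk φ (db u) z := by
  rw [db_eq ((k1b'.pbk_smooth (an_sm hφ) hu).differentiableAt (by simp))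
    (((hφ.eventually (by simp)).and (hφ.continuousAt.eventually h)).mono fun _ k => pbk_ty k.1 k.2),
    k1b'.nat (an_sm hφ) hu, pbk, pm_jc (hφ.differentiableAt (by simp)), pbk,
    db_eq (hu.differentiableAt (by simp)) h]

theorem KD_pbk {g : Cm b → Fin c → ℂ} {g' : Cm a → Fin c → ℂ} {U : Cm b → FI c → Fo b}
    (hφ : ContDiffAt ℂ ω φ z) (hU : ContDiffAt ℝ ∞ U (φ z))
    (h : ∀ᶠ y in 𝓝 (φ z), ∀ S, pm b 0 *ᵥ U y S = U y S) (hg : g' z = g (φ z)) (S : FI c) :
    KD g' (fun y S => pbk φ (fun x => U x S) y) z S = lr (jc φ z) *ᵥ KD g U (φ z) S := by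
  rw [KD, KD, hg, Matrix.mulVec_add, Matrix.mulVec_smul, Matrix.mulVec_sum]
  simp only [Matrix.mulVec_smul]
  exact congrArg (fun x => _ • x + _)
    (db_pbk hφ (contDiffAt_pi.1 hU S) (h.mono fun _ k => k S))

theorem pbk_comp {χ : Cm b → Cm c} {u : Cm c → Fo c} (hφ : DifferentiableAt ℝ φ z)
    (hχ : DifferentiableAt ℝ χ (φ z)) : pbk φ (pbk χ u) z = pbk (fun y => χ (φ y)) u z := by
  rw [pbk, pbk, pbk, k1b'.jc_comp hφ hχ, f1a.lr_mul, Matrix.mulVec_mulVec]

theorem pbk_congr {φ' : Cm a → Cm b} (h : φ =ᶠ[𝓝 z] φ') : pbk φ u z = pbk φ' u z := by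
  rw [pbk, pbk, k1b'.jc_congr h, h.self_of_nhds]

theorem pbk_id {φ : Cm a → Cm a} {u : Cm a → Fo a} (h : ∀ᶠ y in 𝓝 z, φ y = y) : pbk φ u z = u z := by
  rw [pbk_congr (φ' := fun y => y) h, pbk, k1b'.jc_id]
  exact (congrArg (· *ᵥ u z) lam_one).trans (Matrix.one_mulVec _)

theorem loc_inv {ψ : Cm a → Cm a} {p : Cm a} (h : ContDiffAt ℂ ω ψ p)
    (hi : Injective (fderiv ℂ ψ p)) : ∃ χ : Cm a → Cm a, ContDiffAt ℂ ω χ (ψ p) ∧
      (∀ᶠ z in 𝓝 p, χ (ψ z) = z) ∧ ∀ᶠ w in 𝓝 (ψ p), ψ (χ w) = w := by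
  let E : Cm a ≃L[ℂ] Cm a := (LinearEquiv.ofInjectiveEndo (fderiv ℂ ψ p).toLinearMap
    hi).toContinuousLinearEquiv
  have h1 : HasFDerivAt ψ (E : Cm a →L[ℂ] Cm a) p := (h.differentiableAt (by simp)).hasFDerivAt
  have h2 := h.hasStrictFDerivAt' h1 (by simp)
  exact ⟨h.localInverse h1 (by simp), h.to_localInverse h1 (by simp),
    h2.eventually_left_inverse, h2.eventually_right_inverse⟩

variable {r : ℕ} {f : Cm r → Cm (r + c)} {g : Cm (r + c) → Fin c → ℂ} {q : Cm r}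

/-- adapted coordinates and a retraction -/
theorem adapt (hf : ContDiffAt ℂ ω f q) (hg : ContDiffAt ℂ ω g (f q))
    (hi : Injective (fderiv ℂ f q)) (hs : Surjective (fderiv ℂ g (f q)))
    (hgf : ∀ᶠ z in 𝓝 q, g (f z) = 0) :
    ∃ (ψ χ : Cm (r + c) → Cm (r + c)) (ρ : Cm (r + c) → Cm r), ContDiffAt ℂ ω ψ (f q) ∧
      ContDiffAt ℂ ω χ (ψ (f q)) ∧ ContDiffAt ℂ ω ρ (f q) ∧ (∀ z j, ψ z (Fin.natAdd r j) = g z j) ∧
      (∀ᶠ z in 𝓝 (f q), χ (ψ z) = z) ∧ (∀ᶠ w in 𝓝 (ψ (f q)), ψ (χ w) = w) ∧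
      (∀ᶠ z in 𝓝 q, ρ (f z) = z) ∧
      ∀ᶠ z in 𝓝 (f q), ψ (f (ρ z)) = sc (wσ (Fin.natAdd r)) 0 (ψ z) := by
  have d1 := (hf.differentiableAt (by simp)).hasFDerivAt
  have d2 := (hg.differentiableAt (by simp)).hasFDerivAt
  obtain ⟨L0, hL0⟩ := (fderiv ℂ f q).toLinearMap.exists_leftInverse_of_injective
    (LinearMap.ker_eq_bot.2 hi)
  let L : Cm (r + c) →L[ℂ] Cm r := LinearMap.toContinuousLinearMap L0
  have hL : ∀ v, L (fderiv ℂ f q v) = v := fun v => LinearMap.congr_fun hL0 v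
  let ψ : Cm (r + c) → Cm (r + c) := fun z => Fin.append (L z) (g z)
  have hψ : ContDiffAt ℂ ω ψ (f q) := contDiffAt_pi.2 fun l => by
    refine Fin.addCases (fun i => ?_) (fun j => ?_) l
    · simp only [ψ, Fin.append_left]
      exact contDiffAt_pi.1 L.contDiff.contDiffAt i
    · simp only [ψ, Fin.append_right]
      exact contDiffAt_pi.1 hg j
  have d3 := (hψ.differentiableAt (by simp)).hasFDerivAt
  have e1 : ∀ v, fderiv ℂ g (f q) (fderiv ℂ f q v) = 0 := fun v =>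
    congrArg (fun A => A v) ((d2.comp q d1).unique
      ((hasFDerivAt_const (0 : Fin c → ℂ) q).congr_of_eventuallyEq hgf))
  have e2 : LinearMap.range (fderiv ℂ f q).toLinearMap =
      LinearMap.ker (fderiv ℂ g (f q)).toLinearMap := by
    refine Submodule.eq_of_le_of_finrank_eq (by rintro _ ⟨v, rfl⟩; exact e1 v) ?_
    have k1 := LinearMap.finrank_range_of_inj (f := (fderiv ℂ f q).toLinearMap) hi
    have k2 := (fderiv ℂ g (f q)).toLinearMap.finrank_range_add_finrank_ker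
    rw [LinearMap.range_eq_top.2 hs, finrank_top] at k2
    simp only [Module.finrank_fin_fun] at k1 k2
    omega
  have i1 : Injective (fderiv ℂ ψ (f q)) := (injective_iff_map_eq_zero _).2 fun v hv => by
    have k1 : L v = 0 := funext fun i => by
      have := (hasFDerivAt_pi'.1 d3 (Fin.castAdd c i)).unique (by
        simp only [ψ, Fin.append_left]
        exact hasFDerivAt_pi'.1 L.hasFDerivAt i)
      exact (congrArg (fun A => A v) this).symm.trans (congrFun hv _)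
    have k2 : fderiv ℂ g (f q) v = 0 := funext fun j => by
      have := (hasFDerivAt_pi'.1 d3 (Fin.natAdd r j)).unique (by
        simp only [ψ, Fin.append_right]
        exact hasFDerivAt_pi'.1 d2 j)
      exact (congrArg (fun A => A v) this).symm.trans (congrFun hv _)
    obtain ⟨x, rfl⟩ : v ∈ LinearMap.range (fderiv ℂ f q).toLinearMap := e2 ▸ k2
    rw [show x = 0 from (hL x).symm.trans k1, map_zero]
  have hθ : ContDiffAt ℂ ω (fun z => L (f z)) q := L.contDiff.contDiffAt.comp q hf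
  obtain ⟨χ, c1, c2, c3⟩ := loc_inv hψ i1
  obtain ⟨τ, t1, t2, t3⟩ := loc_inv hθ (by
    rw [show fderiv ℂ (fun z => L (f z)) q = _ from (L.hasFDerivAt.comp q d1).fderiv]
    exact fun v w k => (hL v).symm.trans (k.trans (hL w)))
  have hρ : ContDiffAt ℂ ω (fun z => τ (L z)) (f q) := t1.comp (f q) L.contDiff.contDiffAt
  refine ⟨ψ, χ, fun z => τ (L z), hψ, c1, hρ, fun z j => Fin.append_right _ _ j, c2, c3, t2, ?_⟩
  have k1 := hρ.continuousAt.tendsto
  simp only [t2.self_of_nhds] at k1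
  filter_upwards [L.continuous.continuousAt.eventually t3, k1.eventually hgf] with z z1 z2
  funext l
  rw [sc_apply]
  refine Fin.addCases (fun i => ?_) (fun j => ?_) l
  · rw [wσ, Finset.sum_eq_zero fun j _ => if_neg fun k => by
      have := congrArg Fin.val k
      simp only [Fin.val_natAdd, Fin.val_castAdd] at this
      omega]
    simp only [ψ, Fin.append_left, z1, pow_zero, one_mul]
  · rw [wσ_σ (Fin.natAdd_injective c r)]
    simp only [ψ, Fin.append_right, z2, Complex.ofReal_zero, pow_one, zero_mul, Pi.zero_apply]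

/-- **local exactness of the cone in a chart** -/
theorem chart (hf : ContDiffAt ℂ ω f q) (hg : ContDiffAt ℂ ω g (f q))
    (hi : Injective (fderiv ℂ f q)) (hs : Surjective (fderiv ℂ g (f q)))
    (hgf : ∀ᶠ z in 𝓝 q, g (f z) = 0) {U : Cm (r + c) → FI c → Fo (r + c)}
    (hU : ∀ᶠ z in 𝓝 (f q), ContDiffAt ℝ ∞ U z)
    (hty : ∀ᶠ z in 𝓝 (f q), ∀ S, pm (r + c) 0 *ᵥ U z S = U z S)
    (h0 : ∀ᶠ z in 𝓝 (f q), ∀ S, KD g U z S = 0) {α : Cm r → Fo r}
    (ha : ∀ᶠ z in 𝓝 q, ContDiffAt ℝ ∞ α z) (hta : ∀ᶠ z in 𝓝 q, pm r 0 *ᵥ α z = α z)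
    (h1 : ∀ᶠ z in 𝓝 q, pbk f (fun y => U y ∅) z = db α z) :
    ∃ V : Cm (r + c) → FI c → Fo (r + c), (∀ᶠ z in 𝓝 (f q), ContDiffAt ℝ ∞ V z) ∧
      (∀ᶠ z in 𝓝 (f q), ∀ S, pm (r + c) 0 *ᵥ V z S = V z S) ∧
      (∀ᶠ z in 𝓝 (f q), ∀ S, KD g V z S = U z S) ∧
      ∀ᶠ z in 𝓝 q, pbk f (fun y => V y ∅) z = α z := by
  obtain ⟨ψ, χ, ρ, a1, a2, a3, e1, e2, e3, e4, e5⟩ := adapt hf hg hi hs hgf
  have tχ : Tendsto χ (𝓝 (ψ (f q))) (𝓝 (f q)) := by
    have := a2.continuousAt.tendsto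
    rwa [e2.self_of_nhds] at this
  have tρ : Tendsto ρ (𝓝 (f q)) (𝓝 q) := by
    have := a3.continuousAt.tendsto
    rwa [e4.self_of_nhds] at this
  have tψ := a1.continuousAt.tendsto
  have tf := hf.continuousAt.tendsto
  have n1 := a1.eventually (by simp)
  have n2 := a2.eventually (by simp)
  have n3 := a3.eventually (by simp)
  have nf := hf.eventually (by simp)
  obtain ⟨W, -, w1, w2, -⟩ := ex_glob (V := fun w S => pbk χ (fun y => U y S) w) univ_mem
    ((n2.and (tχ.eventually hU)).mono fun w k => contDiffAt_pi.2 fun S =>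
      k1b'.pbk_smooth (an_sm k.1) (contDiffAt_pi.1 k.2 S))
  have hp : ∀ j, ψ (f q) (Fin.natAdd r j) = 0 := fun j => by
    rw [e1, hgf.self_of_nhds, Pi.zero_apply]
  obtain ⟨V, v1, v2, v3, v4⟩ := flat (Fin.natAdd_injective c r) hp w1 (by
      filter_upwards [w2, n2, tχ.eventually hty] with w k1 k2 k3 S
      rw [k1]
      exact pbk_ty k2 (k3 S)) (by
      filter_upwards [w2.eventuallyEq_nhds, n2, tχ.eventually hU,
        tχ.eventually hty.eventually_nhds, tχ.eventually h0, e3] with w k1 k2 k3 k4 k5 k6 S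
      rw [KD_congr k1, KD_pbk (g := g) k2 k3 k4 (funext fun j => by rw [← e1, k6]), k5,
        Matrix.mulVec_zero])
  have s1 : ∀ᶠ z in 𝓝 (f q), ContDiffAt ℝ ∞ (fun y S => pbk ψ (fun x => V x S) y) z :=
    n1.mono fun z k => contDiffAt_pi.2 fun S =>
      k1b'.pbk_smooth (an_sm k) (contDiff_pi.1 v1 S).contDiffAt
  have s2 : ∀ᶠ z in 𝓝 (f q), ContDiffAt ℝ ∞ (pbk ρ α) z :=
    (n3.and (tρ.eventually ha)).mono fun z k => k1b'.pbk_smooth (an_sm k.1) k.2
  refine ⟨fun z S => pbk ψ (fun x => V x S) z + if S = ∅ then pbk ρ α z else 0, ?_, ?_, ?_, ?_⟩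
  · filter_upwards [s1, s2] with z k1 k2
    refine contDiffAt_pi.2 fun S => (contDiffAt_pi.1 k1 S).add ?_
    split_ifs
    · exact k2
    · exact contDiffAt_const
  · filter_upwards [n1, n3, tρ.eventually hta] with z k1 k2 k3 S
    rw [Matrix.mulVec_add, pbk_ty k1 (v2 _ S)]
    split_ifs
    · rw [pbk_ty k2 k3]
    · rw [Matrix.mulVec_zero]
  · have t0 : Tendsto (fun z => f (ρ z)) (𝓝 (f q)) (𝓝 (f q)) := tf.comp tρ
    filter_upwards [s1, s2, n1, n3, tψ.eventually v4, tψ.eventually w2, tψ.eventually n2,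
      e2.eventually_nhds, tρ.eventually ha, tρ.eventually hta.eventually_nhds, tρ.eventually h1,
      tρ.eventually nf, e5.eventually_nhds, t0.eventually (tψ.eventually w2),
      t0.eventually (tψ.eventually n2), (t0.eventually e2).eventually_nhds]
      with z k1 k2 k3 k4 k5 k6 k7 k8 k9 k10 k11 k12 k13 k14 k15 k16 S
    have e6 : KD g (fun z S => pbk ψ (fun x => V x S) z + if S = ∅ then pbk ρ α z else 0) z S =
        KD g (fun z S => pbk ψ (fun x => V x S) z) z S + if S = ∅ then db (pbk ρ α) z else 0 := by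
      have e7 : iotV (g z) S ∅ = 0 :=
        (mulVec_ev (iotV (g z)) ∅ S).symm.trans (congrFun (iotV_ev_empty _) S)
      simp only [KD, smul_add, Finset.sum_add_distrib, smul_ite, smul_zero, Finset.sum_ite_eq',
        Finset.mem_univ, if_true, e7, zero_smul, add_zero]
      split_ifs with k
      · subst k
        simp only [db, Dv_add ((contDiffAt_pi.1 k1 ∅).differentiableAt (by simp))
          (k2.differentiableAt (by simp)), Matrix.mulVec_add, Finset.sum_add_distrib,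
          Finset.card_empty, pow_zero, one_smul]
        abel
      · simp only [add_zero]
    rw [e6, KD_pbk (g := fun z j => z (Fin.natAdd r j)) k3 v1.contDiffAt (.of_forall v2)
      (funext fun j => (e1 z j).symm), k5, Matrix.mulVec_sub, k6]
    have e8 : lr (jc ψ z) *ᵥ pbk χ (fun y => U y S) (ψ z) = U z S :=
      (pbk_comp (an_df k3) (an_df k7)).trans (pbk_id k8)
    rw [e8]
    split_ifs
    · have e9 := k13.self_of_nhds
      have e10 : lr (jc ψ z) *ᵥ pbk (sc (wσ (Fin.natAdd r)) 0) (fun y => W y ∅) (ψ z) =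
          pbk (fun y => f (ρ y)) (fun y => U y ∅) z := by
        have d1 : DifferentiableAt ℝ (fun y => sc (wσ (Fin.natAdd r)) 0 (ψ y)) z :=
          (sc _ 0).differentiableAt.comp z (an_df k3)
        refine (pbk_comp (an_df k3) (sc _ 0).differentiableAt).trans ?_
        rw [pbk, ← e9, k14, e9]
        refine (pbk_comp d1 (e9 ▸ an_df k15)).trans (pbk_congr ?_)
        filter_upwards [k13, k16] with y y1 y2
        rw [← y1, y2]
      rw [e10, db_pbk k4 k9 k10, ← pbk_comp (an_df k4) (an_df k12), pbk, pbk.eq_1 ρ (db α), ← k11,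
        sub_add_cancel]
    · rw [Matrix.mulVec_zero, sub_zero, add_zero]
  · filter_upwards [nf, tf.eventually n3, e4.eventually_nhds, hgf] with z k1 k2 k3 k4
    simp only [if_true]
    rw [pbk, Matrix.mulVec_add, pbk, v3 _ fun j => by rw [e1, k4, Pi.zero_apply],
      Matrix.mulVec_zero, Matrix.mulVec_zero, zero_add]
    exact (pbk_comp (an_df k1) (an_df k2)).trans (pbk_id k3)

end Vale.Agent.P269HK
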