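import Vale.Agent.P269HK.Res

/-!
# P269, block H: submanifolds cut out transversally by sections
-/

open scoped Manifold ContDiff
open Vale.Agent.P272.K
open Vale.Agent.P281Z (Imm)
open Vale.Agent.P277Z.Slc (Ind)

namespace Vale.Agent.P269HK

variable {r c : ℕ} {Y : Type} [TopologicalSpace Y] [ChartedSpace (Cm (r + c)) Y] {I : Type}
  {M : Type} [TopologicalSpace M] [ChartedSpace (Cm r) M] {I' : Type}

/-- `ι` embeds `M` onto the transversal zero set of the sections `F j` of `O(d j)` -/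
structure Cut (H' : HC r M I') (H : HC (r + c) Y I) (ι : M → Y) (μ : M → ℂ) (F : Fin c → Y → ℂ)
    (d : Fin c → ℕ) : Prop extends Cmp H' H ι μ where
  inj : Function.Injective ι
  imm : ∀ m, Imm r (r + c) ι m
  hF : ∀ j, H.Hh (d j) (F j)
  rng : ∀ y, (∀ j, F j y = 0) ↔ y ∈ Set.range ι
  ind : ∀ m, ∃ k, H.x (ι m) k ≠ 0 ∧ Ind (r + c) (fun j y => F j y / H.x y k ^ (d j : ℤ)) (ι m)

end Vale.Agent.P269HK
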