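import Vale.Agent.P281Z.Hg.Po1
import Vale.Agent.P281Z.Hg.K1b

/-!
# P269, block H: a homotopy formula for first order operators of Koszul-Dolbeault type
-/

open scoped ContDiff Topology Matrix
open Filter MeasureTheory Set
open Vale.Agent.P272.K Vale.Agent.P299.IX Vale.Agent.P299.IX.Fock Vale.Agent.P284Y.Lib
  Vale.Agent.P281Z.Hg Vale.Agent.P281Z.Hg.Ka

noncomputable section

namespace Vale.Agent.P269HK

variable {n : ℕ} {κ : Type} [Fintype κ] [DecidableEq κ]
  {A B A' B' : Fin (n + n) → Matrix κ κ ℂ} {u : Cm n → κ → ℂ} {z : Cm n}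

/-- first order operators with constant and linear coefficients -/
def T (A B : Fin (n + n) → Matrix κ κ ℂ) (u : Cm n → κ → ℂ) (z : Cm n) : κ → ℂ :=
  ∑ p, A p *ᵥ Dv p u z + ∑ q, cx z q • (B q *ᵥ u z)

theorem dr_cx (p l : Fin (n + n)) (z : Cm n) :
    dr p (fun y => cx y l) z = if p = l then 1 else 0 := by
  have h := congrFun (congrFun (Kb.jc_id z) p) l
  rwa [Matrix.one_apply] at h

theorem cx_cd (l : Fin (n + n)) : ContDiff ℝ ∞ fun y : Cm n => cx y l :=
  contDiff_iff_contDiffAt.2 fun _ => Kb.cx_cd l contDiffAt_id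

omit [DecidableEq κ] in
theorem Dv_comm (p q : Fin (n + n)) (hu : ContDiffAt ℝ ∞ u z) :
    Dv p (Dv q u) z = Dv q (Dv p u) z := funext fun I => dr_comm p q (contDiffAt_pi.1 hu I)

omit [DecidableEq κ] in
theorem T_congr {v : Cm n → κ → ℂ} (h : u =ᶠ[𝓝 z] v) : T A B u z = T A B v z := by
  simp only [T, Dv_congr h, h.self_of_nhds]

omit [DecidableEq κ] in
theorem T_zero : T A B (fun _ => 0) z = 0 := by
  simp only [T, Dv_const, Matrix.mulVec_zero, smul_zero, Finset.sum_const_zero, add_zero]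

omit [DecidableEq κ] in
theorem T_smul (a : ℂ) (hu : DifferentiableAt ℝ u z) :
    T A B (fun y => a • u y) z = a • T A B u z := by
  simp only [T, Dv_smul a hu, Matrix.mulVec_smul, smul_add, Finset.smul_sum, smul_comm a]

omit [DecidableEq κ] in
theorem T_cd (hu : ContDiffAt ℝ ∞ u z) : ContDiffAt ℝ ∞ (T A B u) z :=
  (ContDiffAt.sum fun p _ => cd_mul (A p) (Dv_smooth hu)).add
    (ContDiffAt.sum fun q _ => (cx_cd q).contDiffAt.smul (cd_mul (B q) hu))

omit [DecidableEq κ] in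
theorem Dv_T (p : Fin (n + n)) (hu : ContDiffAt ℝ ∞ u z) : Dv p (T A B u) z =
    ∑ p', A p' *ᵥ Dv p (Dv p' u) z + (B p *ᵥ u z + ∑ q, cx z q • (B q *ᵥ Dv p u z)) := by
  have h0 := hu.differentiableAt (by simp)
  have h1 : ∀ p', DifferentiableAt ℝ (Dv p' u) z := fun p' =>
    (Dv_smooth hu).differentiableAt (by simp)
  have h2 : ∀ q, DifferentiableAt ℝ (fun y : Cm n => cx y q) z := fun q =>
    (cx_cd q).differentiable (by simp) z
  have h3 : ∀ q, DifferentiableAt ℝ (fun y => cx y q • (B q *ᵥ u y)) z := fun q =>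
    (h2 q).smul (df_mul _ h0)
  show Dv p (fun y => ∑ p', A p' *ᵥ Dv p' u y + ∑ q, cx y q • (B q *ᵥ u y)) z = _
  rw [Dv_add (.fun_sum fun p' _ => df_mul _ (h1 p')) (.fun_sum fun q _ => h3 q),
    Dv_sum _ fun p' _ => df_mul _ (h1 p'), Dv_sum _ fun q _ => h3 q]
  simp only [Dv_mul _ (h1 _), Dv_fmul (h2 _) (df_mul _ h0), Dv_mul _ h0, dr_cx, ite_smul, one_smul,
    zero_smul, Finset.sum_add_distrib, Finset.sum_ite_eq, Finset.mem_univ, if_true]

/-- the weights of the coordinates `z_l`, `z̄_l` -/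
def wz (w : Fin n → ℕ) : Fin (n + n) → ℕ := Fin.append w w

theorem wz_hl (w : Fin n → ℕ) (j : Fin n) : wz w (hl j) = w j := Fin.append_left w w j

theorem wz_ah (w : Fin n → ℕ) (j : Fin n) : wz w (ah j) = w j := Fin.append_right w w j

/-- the relations -/
structure Car (A B A' B' : Fin (n + n) → Matrix κ κ ℂ) (w : Fin n → ℕ) (ν : κ → ℕ) : Prop where
  aa : ∀ p q, A p * A' q = -(A' q * A p)
  bb : ∀ p q, B p * B' q = -(B' q * B p)
  ab : ∀ p q, A p * B' q + B' q * A p + (A' p * B q + B q * A' p) =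
    if p = q then (wz w p : ℂ) • 1 else 0
  nu : ∑ p, (A p * B' p + A' p * B p) = Matrix.diagonal fun x => (ν x : ℂ)
  la : ∀ (s : ℂ) p, Matrix.diagonal (fun x => s ^ ν x) * A p =
    s ^ wz w p • (A p * Matrix.diagonal fun x => s ^ ν x)
  lb : ∀ (s : ℂ) p, B p * Matrix.diagonal (fun x => s ^ ν x) =
    s ^ wz w p • (Matrix.diagonal (fun x => s ^ ν x) * B p)
  la' : ∀ (s : ℂ) p, Matrix.diagonal (fun x => s ^ ν x) * A' p =
    s • (A' p * Matrix.diagonal fun x => s ^ ν x)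
  lb' : ∀ (s : ℂ) p, s ^ wz w p • B' p = s • B' p

variable {w : Fin n → ℕ} {ν : κ → ℕ}

theorem Car.lie (h : Car A B A' B' w ν) (hu : ContDiffAt ℝ ∞ u z) :
    T A B (T A' B' u) z + T A' B' (T A B u) z =
      ∑ p, ((wz w p : ℂ) * cx z p) • Dv p u z +
        (Matrix.diagonal fun x => (ν x : ℂ)) *ᵥ u z := by
  have e1 : ∑ p, ∑ q, (A p * A' q) *ᵥ Dv p (Dv q u) z +
      ∑ p, ∑ q, (A' p * A q) *ᵥ Dv p (Dv q u) z = 0 := by
    rw [Finset.sum_comm, ← Finset.sum_add_distrib]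
    refine Finset.sum_eq_zero fun p _ => ?_
    rw [← Finset.sum_add_distrib]
    refine Finset.sum_eq_zero fun q _ => ?_
    rw [h.aa, Dv_comm q p hu, Matrix.neg_mulVec, neg_add_cancel]
  have e2 : ∑ p, ∑ q, cx z p • cx z q • (B p * B' q) *ᵥ u z +
      ∑ p, ∑ q, cx z p • cx z q • (B' p * B q) *ᵥ u z = 0 := by
    rw [Finset.sum_comm, ← Finset.sum_add_distrib]
    refine Finset.sum_eq_zero fun p _ => ?_
    rw [← Finset.sum_add_distrib]
    refine Finset.sum_eq_zero fun q _ => ?_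
    rw [h.bb, smul_comm, Matrix.neg_mulVec, smul_neg, smul_neg, neg_add_cancel]
  have e3 : ∑ p, ∑ q, cx z q • (A p * B' q) *ᵥ Dv p u z + ∑ q, ∑ p, cx z q • (B' q * A p) *ᵥ Dv p u z +
      (∑ p, ∑ q, cx z q • (A' p * B q) *ᵥ Dv p u z + ∑ q, ∑ p, cx z q • (B q * A' p) *ᵥ Dv p u z) =
      ∑ p, ((wz w p : ℂ) * cx z p) • Dv p u z := by
    rw [Finset.sum_comm (f := fun q p => cx z q • (B' q * A p) *ᵥ Dv p u z),
      Finset.sum_comm (f := fun q p => cx z q • (B q * A' p) *ᵥ Dv p u z)]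
    simp only [← Finset.sum_add_distrib, ← smul_add, ← Matrix.add_mulVec, h.ab]
    refine Finset.sum_congr rfl fun p _ => ?_
    rw [Finset.sum_eq_single p (fun q _ hq => by
      rw [if_neg hq.symm, Matrix.zero_mulVec, smul_zero]) fun h => (h (Finset.mem_univ _)).elim,
      if_pos rfl, Matrix.smul_mulVec, Matrix.one_mulVec, smul_smul, mul_comm]
  rw [← e3, ← h.nu, show T A B (T A' B' u) z = ∑ p, A p *ᵥ Dv p (T A' B' u) z +
    ∑ q, cx z q • (B q *ᵥ T A' B' u z) from rfl, show T A' B' (T A B u) z =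
    ∑ p, A' p *ᵥ Dv p (T A B u) z + ∑ q, cx z q • (B' q *ᵥ T A B u z) from rfl]
  simp only [Dv_T _ hu]
  simp only [T, Matrix.mulVec_add, Matrix.mulVec_sum, Matrix.mulVec_smul, Matrix.mulVec_mulVec,
    smul_add, Finset.smul_sum, Finset.sum_add_distrib, Matrix.sum_mulVec, Matrix.add_mulVec]
  linear_combination (exp := 1) e1 + e2

/-- the scaling -/
def sc (w : Fin n → ℕ) (s : ℝ) : Cm n →L[ℝ] Cm n :=
  ContinuousLinearMap.pi fun l => s ^ w l • ContinuousLinearMap.proj l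

theorem sc_apply (s : ℝ) (z : Cm n) (l : Fin n) : sc w s z l = (s : ℂ) ^ w l * z l := by
  show s ^ w l • z l = _
  rw [Complex.real_smul, Complex.ofReal_pow]

theorem cx_sc (s : ℝ) (z : Cm n) (p : Fin (n + n)) :
    cx (sc w s z) p = (s : ℂ) ^ wz w p * cx z p := by
  refine Fin.addCases (fun j => ?_) (fun j => ?_) p
  · rw [wz, Fin.append_left]
    exact (cx_hl _ j).trans ((sc_apply s z j).trans (congrArg _ (cx_hl z j).symm))
  · rw [wz, Fin.append_right]
    refine (cx_ah _ j).trans (Eq.trans ?_ (congrArg _ (cx_ah z j).symm))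
    rw [sc_apply, star_mul', star_pow, Complex.star_def, Complex.conj_ofReal]

theorem sc_cd : ContDiff ℝ ∞ fun q : ℝ × Cm n => sc w q.1 q.2 :=
  contDiff_pi.2 fun l => (contDiff_fst.pow (w l)).smul ((contDiff_apply ℝ ℂ l).comp contDiff_snd)

omit [DecidableEq κ] in
theorem Dv_sc (s : ℝ) (p : Fin (n + n)) (hu : DifferentiableAt ℝ u (sc w s z)) :
    Dv p (fun y => u (sc w s y)) z = (s : ℂ) ^ wz w p • Dv p u (sc w s z) := by
  funext I
  rw [Dv, Kb.dr_comp (g := fun y => u y I) p (sc w s).differentiableAt (dp hu I),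
    Finset.sum_eq_single p (fun q _ hq => ?_) fun h => (h (Finset.mem_univ _)).elim]
  · simp only [jc, Matrix.of_apply, cx_sc]
    rw [dr_cmul _ ((cx_cd p).differentiable (by simp) z), dr_cx, if_pos rfl, mul_one]
    rfl
  · simp only [jc, Matrix.of_apply, cx_sc]
    rw [dr_cmul _ ((cx_cd q).differentiable (by simp) z), dr_cx, if_neg hq.symm, mul_zero, zero_mul]

/-- the weights on the values -/
def Λ (ν : κ → ℕ) (s : ℝ) : Matrix κ κ ℂ := Matrix.diagonal fun x => (s : ℂ) ^ ν x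

theorem Car.scale (h : Car A B A' B' w ν) (s : ℝ) (hu : DifferentiableAt ℝ u (sc w s z)) :
    T A B (fun y => Λ ν s *ᵥ u (sc w s y)) z = Λ ν s *ᵥ T A B u (sc w s z) := by
  have h1 : DifferentiableAt ℝ (fun y => u (sc w s y)) z := hu.comp z (sc w s).differentiableAt
  simp only [T, Dv_mul _ h1, Dv_sc s _ hu, Matrix.mulVec_add,
    Matrix.mulVec_sum, Matrix.mulVec_smul, Matrix.mulVec_mulVec, cx_sc, Λ, h.la, h.lb,
    Matrix.smul_mulVec, smul_smul, mul_comm]

/-- the integrand of the homotopy -/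
def gi (A' B' : Fin (n + n) → Matrix κ κ ℂ) (w : Fin n → ℕ) (ν : κ → ℕ) (u : Cm n → κ → ℂ) (s : ℝ)
    (z : Cm n) : κ → ℂ :=
  ∑ p, A' p *ᵥ (Λ ν s *ᵥ Dv p u (sc w s z)) + ∑ q, cx z q • (Λ ν s *ᵥ (B' q *ᵥ u (sc w s z)))

theorem Car.gi_eq (h : Car A B A' B' w ν) (s : ℝ) (z : Cm n) :
    (s : ℂ) • gi A' B' w ν u s z = Λ ν s *ᵥ T A' B' u (sc w s z) := by
  have e : ∀ q, cx (sc w s z) q • (B' q *ᵥ u (sc w s z)) =
      (s : ℂ) • cx z q • (B' q *ᵥ u (sc w s z)) := fun q => by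
    rw [cx_sc, mul_comm, mul_smul, ← Matrix.smul_mulVec, h.lb', Matrix.smul_mulVec, smul_comm]
  simp only [gi, T, e, Matrix.mulVec_add, Matrix.mulVec_sum, Matrix.mulVec_smul, smul_add,
    Finset.smul_sum]
  simp only [Matrix.mulVec_mulVec, Λ, h.la', Matrix.smul_mulVec]

theorem Λ_cd {E : Type} [NormedAddCommGroup E] [NormedSpace ℝ E] {s : E → ℝ} {v : E → κ → ℂ}
    (hs : ContDiff ℝ ∞ s) (hv : ContDiff ℝ ∞ v) : ContDiff ℝ ∞ fun q => Λ ν (s q) *ᵥ v q :=
  contDiff_pi.2 fun I => by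
    simp only [Λ, Matrix.mulVec_diagonal]
    exact ((Complex.ofRealCLM.contDiff.comp hs).pow _).mul (contDiff_pi.1 hv I)

omit [DecidableEq κ] in
theorem cd_mul' {E : Type} [NormedAddCommGroup E] [NormedSpace ℝ E] {v : E → κ → ℂ}
    (A : Matrix κ κ ℂ) (hv : ContDiff ℝ ∞ v) : ContDiff ℝ ∞ fun q => A *ᵥ v q :=
  contDiff_pi.2 fun _ => ContDiff.sum fun J _ => contDiff_const.mul (contDiff_pi.1 hv J)

theorem gi_cd (hu : ContDiff ℝ ∞ u) : ContDiff ℝ ∞ (Function.uncurry (gi A' B' w ν u)) :=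
  (ContDiff.sum fun p _ => cd_mul' (A' p) (Λ_cd contDiff_fst
    ((contDiff_iff_contDiffAt.2 fun _ => Dv_smooth hu.contDiffAt).comp sc_cd))).add
    (ContDiff.sum fun q _ => ((cx_cd q).comp contDiff_snd).smul
      (Λ_cd contDiff_fst (cd_mul' (B' q) (hu.comp sc_cd))))

theorem gi_cont (hu : ContDiff ℝ ∞ u) (z : Cm n) : Continuous fun s => gi A' B' w ν u s z := by
  have h := (gi_cd (A' := A') (B' := B') (w := w) (ν := ν) hu).continuous
  generalize gi A' B' w ν u = g at h ⊢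
  exact h.comp (continuous_id.prodMk continuous_const)

theorem gi_dif (hu : ContDiff ℝ ∞ u) (s : ℝ) (z : Cm n) :
    DifferentiableAt ℝ (gi A' B' w ν u s) z := by
  have h := gi_cd (A' := A') (B' := B') (w := w) (ν := ν) hu
  generalize gi A' B' w ν u = g at h ⊢
  exact (h.comp (contDiff_const.prodMk contDiff_id)).differentiable (by simp) z

/-- a matrix as a real continuous linear map -/
def mv {κ' : Type} (A : Matrix κ' κ ℂ) : (κ → ℂ) →L[ℝ] κ' → ℂ :=
  LinearMap.toContinuousLinearMap ((Matrix.mulVecLin A).restrictScalars ℝ)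

omit [DecidableEq κ] in
theorem exT (A B : Fin (n + n) → Matrix κ κ ℂ) (z : Cm n) :
    ∃ (M : (Cm n →L[ℝ] κ → ℂ) →L[ℝ] κ → ℂ) (L : (κ → ℂ) →L[ℝ] κ → ℂ), ∀ u D,
      HasFDerivAt u D z → T A B u z = M D + L (u z) := by
  choose a b v w h _ using fun c : Fin (n + n) => Po1.rep c
  refine ⟨∑ c, (mv (A c)).comp (a c • ContinuousLinearMap.apply ℝ (κ → ℂ) (v c) +
    b c • ContinuousLinearMap.apply ℝ (κ → ℂ) (w c)), ∑ q, cx z q • mv (B q), fun u D hu => ?_⟩
  rw [sum_apply, sum_apply, T]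
  congr 1
  refine Finset.sum_congr rfl fun c _ => congrArg (A c *ᵥ ·) (funext fun I => ?_)
  have h1 : HasFDerivAt (fun y => u y I) _ z := hasFDerivAt_pi'.1 hu I
  rw [Dv, h, h1.fderiv]
  rfl

theorem Car.deriv (h : Car A B A' B' w ν) (hu : ContDiff ℝ ∞ u) {s : ℝ} (hs : s ≠ 0)
    (h0 : ∀ᶠ y in 𝓝 (sc w s z), T A B u y = 0) :
    HasDerivAt (fun s => Λ ν s *ᵥ u (sc w s z)) (T A B (gi A' B' w ν u s) z) s := by
  have hs' : (s : ℂ) ≠ 0 := Complex.ofReal_ne_zero.2 hs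
  have g1 : DifferentiableAt ℝ (gi A' B' w ν u s) z := gi_dif hu s z
  have e1 : (s : ℂ) • T A B (gi A' B' w ν u s) z = Λ ν s *ᵥ
      (∑ p, ((wz w p : ℂ) * cx (sc w s z) p) • Dv p u (sc w s z) +
        (Matrix.diagonal fun x => (ν x : ℂ)) *ᵥ u (sc w s z)) := by
    rw [← T_smul _ g1, ← h.lie hu.contDiffAt, T_congr (A := A') h0, T_zero, add_zero,
      ← h.scale s ((T_cd hu.contDiffAt).differentiableAt (by simp))]
    simp only [h.gi_eq]
  have e2 : HasDerivAt (fun s => sc w s z) (fun l => ((w l : ℝ) * s ^ (w l - 1)) • z l) s :=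
    hasDerivAt_pi.2 fun l => (hasDerivAt_pow (w l) s).smul_const (z l)
  have e3 := (hu.differentiable (by simp) (sc w s z)).hasFDerivAt.comp_hasDerivAt s e2
  refine hasDerivAt_pi.2 fun I => ?_
  simp only [Λ, Matrix.mulVec_diagonal]
  refine ((hasDerivAt_pow (ν I) (s : ℂ)).comp_ofReal.fun_mul (hasDerivAt_pi.1 e3 I)).congr_deriv ?_
  refine mul_left_cancel₀ hs' (Eq.trans ?_ (congrFun e1 I).symm)
  have e4 : ∀ k : ℕ, (s : ℂ) * (k * s ^ (k - 1)) = k * s ^ k := fun k => by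
    cases k with
    | zero => simp
    | succ k => rw [Nat.add_sub_cancel, pow_succ]; ring
  have e5 : ∀ p, (s : ℂ) * cx (fun l => ((w l : ℝ) * s ^ (w l - 1)) • z l) p =
      wz w p * cx (sc w s z) p := fun p => by
    rw [cx_sc, ← mul_assoc, ← e4, mul_assoc]
    congr 1
    refine Fin.addCases (fun j => ?_) (fun j => ?_) p
    · rw [wz, Fin.append_left]
      refine (cx_hl _ j).trans (Eq.trans ?_ (congrArg _ (cx_hl z j).symm))
      rw [Complex.real_smul]
      push_cast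
      rfl
    · rw [wz, Fin.append_right]
      refine (cx_ah _ j).trans (Eq.trans ?_ (congrArg _ (cx_ah z j).symm))
      rw [star_smul, star_trivial, Complex.real_smul]
      push_cast
      rfl
  have e6 := (hasFDerivAt_pi'.1 (hu.differentiable (by simp) (sc w s z)).hasFDerivAt I).fderiv
  have e7 : fderiv ℝ u (sc w s z) (fun l => ((w l : ℝ) * s ^ (w l - 1)) • z l) I =
      ∑ p, cx (fun l => ((w l : ℝ) * s ^ (w l - 1)) • z l) p * Dv p u (sc w s z) I := by
    refine Eq.trans ?_ (fd (g := fun y => u y I) _)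
    rw [e6]
    rfl
  rw [Λ, Matrix.mulVec_diagonal, Pi.add_apply, Matrix.mulVec_diagonal, Finset.sum_apply, e7,
    mul_add, ← mul_assoc, e4, mul_left_comm, Finset.mul_sum _ _ (s : ℂ)]
  simp only [← mul_assoc, e5, Pi.smul_apply, smul_eq_mul, Function.comp_apply]
  ring

/-- the homotopy -/
def ht (A' B' : Fin (n + n) → Matrix κ κ ℂ) (w : Fin n → ℕ) (ν : κ → ℕ) (u : Cm n → κ → ℂ)
    (z : Cm n) : κ → ℂ := ∫ s, gi A' B' w ν u s z ∂(volume.restrict (Ioc (0 : ℝ) 1))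

theorem ht_cd (hu : ContDiff ℝ ∞ u) : ContDiff ℝ ∞ (ht A' B' w ν u) :=
  contDiff_integral_param _ isCompact_Icc Po1.null01 (gi_cd hu)

theorem gi_int (hu : ContDiff ℝ ∞ u) (z : Cm n) :
    Integrable (fun s => gi A' B' w ν u s z) (volume.restrict (Ioc (0 : ℝ) 1)) :=
  integrable_param _ isCompact_Icc Po1.null01 (gi_cont hu z)

theorem ht_ker (hu : ContDiff ℝ ∞ u) {κ' : Type} [Fintype κ'] (E : Matrix κ' κ ℂ)
    (h : ∀ s, E *ᵥ gi A' B' w ν u s z = 0) : E *ᵥ ht A' B' w ν u z = 0 := by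
  refine ((mv E).integral_comp_comm (gi_int hu z)).symm.trans ?_
  exact (integral_congr_ae (.of_forall h)).trans (integral_zero _ _)

omit [DecidableEq κ] in
theorem T_int {g : ℝ → Cm n → κ → ℂ} (hf : ContDiff ℝ ∞ (Function.uncurry g)) (z : Cm n) :
    (Continuous fun s => T A B (g s) z) ∧
      T A B (fun y => ∫ s, g s y ∂(volume.restrict (Ioc (0 : ℝ) 1))) z =
        ∫ s in (0 : ℝ)..1, T A B (g s) z := by
  obtain ⟨M, L, hT⟩ := exT A B z
  have hc : Continuous fun s => fderiv ℝ (g s) z :=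
    (contDiff_fderiv_snd hf).continuous.comp (continuous_id.prodMk continuous_const)
  have hc' : Continuous fun s => g s z := hf.continuous.comp (continuous_id.prodMk continuous_const)
  have h1 : ∀ s, T A B (g s) z = M (fderiv ℝ (g s) z) + L (g s z) := fun s => hT _ _
    ((hf.comp (contDiff_const.prodMk contDiff_id)).differentiable (by simp) z).hasFDerivAt
  have i1 := integrable_param (volume.restrict (Ioc (0 : ℝ) 1)) isCompact_Icc Po1.null01 hc
  have i2 := integrable_param (volume.restrict (Ioc (0 : ℝ) 1)) isCompact_Icc Po1.null01 hc'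
  simp only [h1]
  refine ⟨(M.continuous.comp hc).add (L.continuous.comp hc'), ?_⟩
  rw [intervalIntegral.integral_of_le zero_le_one,
    integral_add (M.integrable_comp i1) (L.integrable_comp i2),
    M.integral_comp_comm i1, L.integral_comp_comm i2]
  exact hT _ _ (hasFDerivAt_integral_param _ isCompact_Icc Po1.null01 hf z)

/-- **the homotopy formula** -/
theorem Car.hom (h : Car A B A' B' w ν) (hu : ContDiff ℝ ∞ u)
    (h0 : ∀ s ∈ Ioo (0 : ℝ) 1, ∀ᶠ y in 𝓝 (sc w s z), T A B u y = 0) :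
    T A B (ht A' B' w ν u) z = u z - Λ ν 0 *ᵥ u (sc w 0 z) := by
  obtain ⟨h2, h1⟩ := T_int (A := A) (B := B) (gi_cd (A' := A') (B' := B') (w := w) (ν := ν) hu) z
  have h4 : ContDiff ℝ ∞ fun s : ℝ => sc w s z :=
    sc_cd.comp (contDiff_id.prodMk (contDiff_const (c := z)))
  have h5 : Continuous fun s : ℝ => Λ ν s *ᵥ u (sc w s z) :=
    (Λ_cd (s := fun s => s) contDiff_id (hu.comp h4)).continuous
  have h3 := intervalIntegral.integral_eq_sub_of_hasDerivAt_of_le zero_le_one h5.continuousOn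
    (fun s hs => h.deriv hu hs.1.ne' (h0 s hs)) (h2.intervalIntegrable _ _)
  have e1 : sc w 1 z = z := funext fun l => by rw [sc_apply]; simp
  have e2 : Λ ν 1 = 1 := by simp [Λ]
  rw [e1, e2, Matrix.one_mulVec] at h3
  exact h1.trans h3

end Vale.Agent.P269HK
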