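import Vale.Agent.P269HK.Flat
import Mathlib.LinearAlgebra.Matrix.Kronecker

/-!
# P269, block H: the Koszul-Dolbeault complex of coordinate functions is locally exact
-/

open scoped ContDiff Topology Matrix Kronecker
open Filter MeasureTheory Set
open Vale.Agent.P272.K Vale.Agent.P299.IX Vale.Agent.P299.IX.Fock Vale.Agent.P281Z.Hg
  Vale.Agent.P281Z.Hg.Ka Vale.Agent.P281Z.Hg.F1bH

noncomputable section

namespace Vale.Agent.P269HK

variable {n c : ℕ} {σ : Fin c → Fin n}

/-- delbar in coordinates -/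
def db (u : Cm n → Fo n) (z : Cm n) : Fo n := ∑ l, eps (ah l) *ᵥ Dv (ah l) u z

/-- the Koszul-Dolbeault operator in coordinates -/
def KD (g : Cm n → Fin c → ℂ) (U : Cm n → FI c → Fo n) (z : Cm n) (S : FI c) : Fo n :=
  (-1 : ℂ) ^ S.card • db (fun y => U y S) z + ∑ S', iotV (g z) S S' • U z S'

/-- the weights -/
def wσ (σ : Fin c → Fin n) (l : Fin n) : ℕ := ∑ j, if l = σ j then 1 else 0

theorem wσ_σ (hσ : Function.Injective σ) (j : Fin c) : wσ σ (σ j) = 1 := by
  simp only [wσ, hσ.eq_iff, Finset.sum_ite_eq, Finset.mem_univ, if_true]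

theorem wσ_ind (hσ : Function.Injective σ) (l : Fin n) :
    wσ σ l = 0 ∨ ∃ j, l = σ j ∧ wσ σ l = 1 := by
  by_cases h : ∃ j, l = σ j
  · obtain ⟨j, rfl⟩ := h
    exact Or.inr ⟨j, rfl, wσ_σ hσ j⟩
  · exact Or.inl (Finset.sum_eq_zero fun j _ => if_neg fun k => h ⟨j, k⟩)

/-- the weights of the generators -/
def ωσ (σ : Fin c → Fin n) (p : Fin (n + n)) : ℕ := if p.val < n then 0 else wz (wσ σ) p

/-- indicator of `dz̄` -/
def αn (p : Fin (n + n)) : ℂ := if p.val < n then 0 else 1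

/-- indicator of `dw_j` -/
def βσ (σ : Fin c → Fin n) (p : Fin (n + n)) (j : Fin c) : ℂ := if p = hl (σ j) then 1 else 0

theorem ωσ_hl (l : Fin n) : ωσ σ (hl l) = 0 := if_pos (hl_lt l)

theorem ωσ_ah (l : Fin n) : ωσ σ (ah l) = wσ σ l := (if_neg (ah_lt l)).trans (wz_ah _ l)

theorem αn_hl (l : Fin n) : αn (hl l) = 0 := if_pos (hl_lt l)

theorem αn_ah (l : Fin n) : αn (ah l) = 1 := if_neg (ah_lt l)

theorem βσ_ah (l : Fin n) : βσ σ (ah l) = 0 := funext fun _ => if_neg (hl_ne _ _).symm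

theorem βσ_hl (l : Fin n) (j : Fin c) : βσ σ (hl l) j = if l = σ j then 1 else 0 := by
  simp only [βσ, hl_inj]

theorem βσ_pow (hσ : Function.Injective σ) (s : ℂ) (p : Fin (n + n)) :
    s ^ wz (wσ σ) p • βσ σ p = s • βσ σ p := funext fun j => by
  by_cases h : p = hl (σ j)
  · rw [h, wz_hl, wσ_σ hσ, pow_one]
  · simp only [Pi.smul_apply, βσ, if_neg h, smul_zero]

theorem neg_kron {a b : Type} (A : Matrix a a ℂ) (B : Matrix b b ℂ) : (-A) ⊗ₖ B = -(A ⊗ₖ B) := by
  rw [← neg_one_smul ℂ A, Matrix.smul_kronecker, neg_one_smul]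

theorem par_epsV (v : Fin c → ℂ) : par * epsV v = -(epsV v * par) := by
  simp only [epsV, Finset.mul_sum, Finset.sum_mul, Matrix.mul_smul, Matrix.smul_mul, par_eps,
    smul_neg, Finset.sum_neg_distrib]

theorem par_iotV (v : Fin c → ℂ) : par * iotV v = -(iotV v * par) := by
  simp only [iotV, Finset.mul_sum, Finset.sum_mul, Matrix.mul_smul, Matrix.smul_mul, par_iot,
    smul_neg, Finset.sum_neg_distrib]

theorem dgl_pow_succ (s : ℂ) : (dgl (fun p => s ^ (p + 1)) : FM c) = s • dgl fun p => s ^ p := by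
  rw [dgl, dgl, ← Matrix.diagonal_smul]
  exact congrArg _ (funext fun I => by rw [Pi.smul_apply, smul_eq_mul, pow_succ'])

theorem dw_pow_add (s : ℂ) (o : Fin c → ℕ) (k : ℕ) :
    (dw o (fun p => s ^ (p + k)) : FM c) = s ^ k • dw o fun p => s ^ p := by
  rw [dw, dw, ← Matrix.diagonal_smul]
  exact congrArg _ (funext fun I => by rw [Pi.smul_apply, smul_eq_mul, pow_add, mul_comm])

theorem iotV_dgl (s : ℂ) (v : Fin c → ℂ) :
    iotV v * dgl (fun p => s ^ p) = s • (dgl (fun p => s ^ p) * iotV v) := by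
  simp only [iotV, Finset.sum_mul, Finset.mul_sum, Finset.smul_sum, Matrix.smul_mul,
    Matrix.mul_smul, ← dgl_iot, dgl_pow_succ, smul_comm s]

theorem sum_eps_iot (o : Fin c → ℕ) :
    ∑ p, (o p : ℂ) • (eps p * iot p) = dw o fun m => m := ext_mulVec fun a => funext fun I => by
  simp only [Matrix.sum_mulVec, Matrix.smul_mulVec, Finset.sum_apply, Pi.smul_apply,
    eps_iot_mulVec, dw, Matrix.mulVec_diagonal, smul_eq_mul, mul_ite, mul_zero, Finset.sum_ite_mem,
    Finset.univ_inter, Nat.cast_sum, Finset.sum_mul]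

/-- the degree -/
def νσ (σ : Fin c → Fin n) (x : FI c × FI (n + n)) : ℕ := x.1.card + ∑ l ∈ x.2, ωσ σ l

theorem dia_pow (s : ℂ) : (Matrix.diagonal fun x => s ^ νσ σ x) =
    (dgl (fun p => s ^ p) : FM c) ⊗ₖ dw (ωσ σ) fun p => s ^ p := by
  simp only [dgl, dw, Matrix.diagonal_kronecker_diagonal, νσ, pow_add]

theorem car_σ (hσ : Function.Injective σ) :
    Car (fun p => αn p • ((par : FM c) ⊗ₖ eps p)) (fun p => iotV (βσ σ p) ⊗ₖ (1 : Fm n))
      (fun p => epsV (βσ σ p) ⊗ₖ (1 : Fm n)) (fun p => (ωσ σ p : ℂ) • ((par : FM c) ⊗ₖ iot p))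
      (wσ σ) (νσ σ) where
  aa p q := by
    simp only [Matrix.smul_mul, Matrix.mul_smul, ← Matrix.mul_kronecker_mul, par_epsV, neg_kron,
      mul_one, one_mul, smul_neg]
  bb p q := by
    simp only [Matrix.smul_mul, Matrix.mul_smul, ← Matrix.mul_kronecker_mul, par_iotV, neg_kron,
      mul_one, one_mul, smul_neg, neg_neg]
  ab p q := by
    simp only [Matrix.smul_mul, Matrix.mul_smul, ← Matrix.mul_kronecker_mul, par_sq, mul_one]
    rw [smul_comm (ωσ σ q : ℂ), ← smul_add, ← smul_add, ← Matrix.kronecker_add,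
      ← Matrix.add_kronecker, add_comm (eps p * _), car, add_comm (epsV _ * _), iotV_epsV,
      Matrix.smul_kronecker, Matrix.one_kronecker_one]
    by_cases h : p = q
    · subst h
      rw [if_pos rfl, if_pos rfl, Matrix.one_kronecker_one, smul_smul, ← add_smul]
      congr 1
      induction p using idx with
      | h l =>
        simp only [αn_hl, zero_mul, zero_add, wz_hl, dotProduct, βσ_hl, wσ, Nat.cast_sum, mul_ite,
          mul_one, mul_zero, Nat.cast_ite, Nat.cast_one, Nat.cast_zero]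
        exact Finset.sum_congr rfl fun j _ => by split_ifs <;> rfl
      | h' l => rw [αn_ah, ωσ_ah, βσ_ah, wz_ah, one_mul, zero_dotProduct, add_zero]
    · rw [if_neg h, if_neg (Ne.symm h), Matrix.kronecker_zero, smul_zero, smul_zero, zero_add,
        dotProduct, Finset.sum_eq_zero, zero_smul]
      intro j _
      rw [βσ, βσ]
      split_ifs with h1 h2
      · exact (h (h2.trans h1.symm)).elim
      all_goals simp
  nu := by
    have e1 : ∀ p, αn p • (ωσ σ p : ℂ) • ((1 : FM c) ⊗ₖ (eps p * iot p)) =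
        (1 : FM c) ⊗ₖ ((ωσ σ p : ℂ) • (eps p * iot p)) := fun p => by
      rw [Matrix.kronecker_smul]
      induction p using idx with
      | h l => rw [ωσ_hl, Nat.cast_zero, zero_smul, smul_zero]
      | h' l => rw [αn_ah, one_smul]
    have e2 : ∑ p, epsV (βσ σ p) * iotV (βσ σ p) = dw (fun _ => 1) fun m => m := by
      rw [← sum_eps_iot]
      simp only [epsV, iotV, Finset.sum_mul, Finset.mul_sum, Matrix.smul_mul, Matrix.mul_smul,
        smul_smul, βσ]
      rw [Finset.sum_comm]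
      refine Finset.sum_congr rfl fun j _ => ?_
      rw [Finset.sum_eq_single (hl (σ j)) (fun p _ hp => by simp [hp]) (by simp),
        Finset.sum_eq_single j (fun i _ hi => by simp [hl_inj, hσ.eq_iff, hi.symm]) (by simp)]
      simp
    simp only [Matrix.smul_mul, Matrix.mul_smul, ← Matrix.mul_kronecker_mul, par_sq, mul_one,
      smul_comm (ωσ σ _ : ℂ), e1, Finset.sum_add_distrib]
    have e3 := map_sum (Matrix.kroneckerBilinear (R := ℂ) (1 : FM c))
      (fun p => (ωσ σ p : ℂ) • (eps p * iot p)) Finset.univ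
    have e4 := map_sum ((Matrix.kroneckerBilinear (R := ℂ)).flip (1 : Fm n))
      (fun p => epsV (βσ σ p) * iotV (βσ σ p)) Finset.univ
    refine (congrArg₂ (· + ·) e3.symm e4.symm).trans ?_
    rw [sum_eps_iot, e2]
    show (1 : FM c) ⊗ₖ dw (ωσ σ) (fun m => m) + dw (fun _ => 1) (fun m => m) ⊗ₖ (1 : Fm n) = _
    simp only [dw, ← Matrix.diagonal_one, Matrix.diagonal_kronecker_diagonal, Matrix.diagonal_add,
      νσ, one_mul, mul_one, Finset.card_eq_sum_ones, Nat.cast_add, add_comm]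
  la s p := by
    rw [dia_pow, Matrix.smul_mul, Matrix.mul_smul, ← Matrix.mul_kronecker_mul,
      ← Matrix.mul_kronecker_mul, dw_eps, dw_pow_add, Matrix.mul_smul, Matrix.kronecker_smul,
      par, dgl_mul, dgl_mul, smul_comm]
    simp only [mul_comm]
    induction p using idx with
    | h l => rw [αn_hl, zero_smul, smul_zero, smul_zero]
    | h' l => rw [ωσ_ah, wz_ah]
  lb s p := by
    rw [dia_pow, ← Matrix.mul_kronecker_mul, ← Matrix.mul_kronecker_mul, iotV_dgl, one_mul,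
      mul_one, ← Matrix.smul_kronecker, ← Matrix.mul_smul, ← Matrix.mul_smul, ← iotV_smul,
      ← iotV_smul, βσ_pow hσ]
  la' s p := by
    rw [dia_pow, ← Matrix.mul_kronecker_mul, ← Matrix.mul_kronecker_mul, dgl_epsV, dgl_pow_succ,
      Matrix.mul_smul, Matrix.smul_kronecker, one_mul, mul_one]
  lb' s p := by
    induction p using idx with
    | h l => rw [ωσ_hl, Nat.cast_zero, zero_smul, smul_zero, smul_zero]
    | h' l =>
      rw [ωσ_ah, wz_ah]
      rcases wσ_ind hσ l with h | ⟨j, -, h⟩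
      · rw [h, Nat.cast_zero, zero_smul, smul_zero, smul_zero]
      · rw [h, pow_one]

theorem kron_apply {a b : Type} [Fintype a] [Fintype b] (M : Matrix a a ℂ) (N : Matrix b b ℂ)
    (u : a × b → ℂ) (S : a) (J : b) :
    ((M ⊗ₖ N) *ᵥ u) (S, J) = ∑ S', M S S' * (N *ᵥ fun J' => u (S', J')) J := by
  simp only [Matrix.mulVec, dotProduct, Fintype.sum_prod_type, Matrix.kronecker_apply,
    Finset.mul_sum, mul_assoc]

theorem T_KD (U : Cm n → FI c → Fo n) (z : Cm n) (S : FI c)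
    (J : FI (n + n)) : T (fun p => αn p • ((par : FM c) ⊗ₖ eps p))
      (fun p => iotV (βσ σ p) ⊗ₖ (1 : Fm n)) (fun z x => U z x.1 x.2) z (S, J) =
        KD (fun z j => z (σ j)) U z S J := by
  have e1 : (fun j => z (σ j)) = ∑ q, cx z q • βσ σ q := funext fun j => by
    simp only [Finset.sum_apply, Pi.smul_apply, βσ, smul_eq_mul, mul_ite, mul_one, mul_zero,
      Finset.sum_ite_eq', Finset.mem_univ, if_true, cx_hl]
  rw [KD, e1, iotV_sum]
  simp only [T, db, Pi.add_apply, Finset.sum_apply, Pi.smul_apply, Matrix.smul_mulVec, kron_apply,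
    Matrix.one_mulVec, smul_eq_mul, iotV_smul, Matrix.sum_apply, Matrix.smul_apply, Finset.sum_mul,
    Finset.mul_sum, par, dgl, Matrix.diagonal_apply, ite_mul, zero_mul, Finset.sum_ite_eq,
    Finset.mem_univ, if_true, mul_assoc]
  rw [Finset.sum_comm (s := Finset.univ) (f := fun S' q => cx z q * (iotV (βσ σ q) S S' * U z S' J)),
    sum_idx]
  simp only [αn_hl, αn_ah, zero_mul, one_mul, Finset.sum_const_zero, zero_add]
  rfl

theorem db_congr {u v : Cm n → Fo n} {z : Cm n} (h : u =ᶠ[𝓝 z] v) : db u z = db v z := by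
  simp only [db, Dv_congr h]

theorem db_pm {u : Cm n → Fo n} {z : Cm n} (h : DifferentiableAt ℝ u z) :
    db (fun y => pm n 0 *ᵥ u y) z = pm n 0 *ᵥ db u z := by
  simp only [db, Dv_mul _ h, Matrix.mulVec_sum, Matrix.mulVec_mulVec, f1b.pm_ah]

theorem KD_congr {g : Cm n → Fin c → ℂ} {U V : Cm n → FI c → Fo n} {z : Cm n} (h : U =ᶠ[𝓝 z] V)
    (S : FI c) : KD g U z S = KD g V z S := by
  rw [KD, KD, h.self_of_nhds, db_congr (h.mono fun _ k => congrFun k S)]

theorem lr_sc {u : Fo n} (h : pm n 0 *ᵥ u = u) (z : Cm n) :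
    lr (jc (sc (wσ σ) 0) z) *ᵥ u = dw (ωσ σ) (fun m => (0 : ℂ) ^ m) *ᵥ u := by
  have e1 : jc (sc (wσ σ) 0) z = Matrix.diagonal fun p => (0 : ℂ) ^ wz (wσ σ) p := by
    ext p q
    simp only [jc, Matrix.of_apply, cx_sc]
    rw [dr_cmul _ ((cx_cd q).differentiable (by simp) z), dr_cx, Matrix.diagonal_apply]
    split_ifs with k
    · rw [k, mul_one, Complex.ofReal_zero]
    · rw [mul_zero]
  have e2 : lr (Matrix.diagonal fun p => (0 : ℂ) ^ wz (wσ σ) p) =
      dw (wz (wσ σ)) fun m => (0 : ℂ) ^ m := ext_ev fun I => by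
    refine (lam_diagonal_ev _ I).trans (funext fun K => ?_)
    rw [dw, Matrix.mulVec_diagonal, Pi.smul_apply, Finset.prod_pow_eq_pow_sum, smul_eq_mul]
    by_cases k : K = I <;> simp [ev, k]
  rw [e1, e2, ← h]
  funext I
  simp only [dw, pm, Matrix.mulVec_diagonal]
  split_ifs with k
  · rw [show ∑ l ∈ I, ωσ σ l = ∑ l ∈ I, wz (wσ σ) l from Finset.sum_congr rfl fun l hl => if_neg
      (Finset.filter_eq_empty_iff.1 (Finset.card_eq_zero.1 k) hl)]
  · rw [zero_mul, mul_zero, mul_zero]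

theorem sc_mem (hσ : Function.Injective σ) {p z : Cm n} (hp : ∀ j, p (σ j) = 0) {ρ s : ℝ}
    (hs : s ∈ Icc (0 : ℝ) 1) (hz : z ∈ Metric.ball p ρ) : sc (wσ σ) s z ∈ Metric.ball p ρ := by
  refine lt_of_le_of_lt ((dist_pi_le_iff dist_nonneg).2 fun l => ?_) hz
  refine le_trans ?_ (dist_le_pi_dist z p l)
  rw [sc_apply]
  rcases wσ_ind hσ l with h | ⟨j, rfl, h⟩
  · rw [h, pow_zero, one_mul]
  · rw [h, pow_one, hp, dist_zero_right, dist_zero_right, norm_mul, Complex.norm_real,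
      Real.norm_of_nonneg hs.1]
    exact mul_le_of_le_one_left (norm_nonneg _) hs.2

/-- **local exactness in adapted coordinates** -/
theorem flat (hσ : Function.Injective σ) {U : Cm n → FI c → Fo n} {p : Cm n}
    (hp : ∀ j, p (σ j) = 0) (hU : ContDiff ℝ ∞ U) (hty : ∀ᶠ z in 𝓝 p, ∀ S, pm n 0 *ᵥ U z S = U z S)
    (h0 : ∀ᶠ z in 𝓝 p, ∀ S, KD (fun z j => z (σ j)) U z S = 0) :
    ∃ V : Cm n → FI c → Fo n, ContDiff ℝ ∞ V ∧ (∀ z S, pm n 0 *ᵥ V z S = V z S) ∧
      (∀ z, (∀ j, z (σ j) = 0) → V z ∅ = 0) ∧ ∀ᶠ z in 𝓝 p, ∀ S, KD (fun z j => z (σ j)) V z S =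
        U z S - if S = ∅ then pbk (sc (wσ σ) 0) (fun y => U y ∅) z else 0 := by
  obtain ⟨ρ, hρ, hb⟩ := Metric.eventually_nhds_iff_ball.1 (hty.and h0)
  have hu : ContDiff ℝ ∞ fun z (x : FI c × FI (n + n)) => U z x.1 x.2 :=
    contDiff_pi.2 fun x => contDiff_pi.1 (contDiff_pi.1 hU x.1) x.2
  have hc := car_σ hσ
  have h1 := ht_cd (A' := fun p => epsV (βσ σ p) ⊗ₖ (1 : Fm n))
    (B' := fun p => (ωσ σ p : ℂ) • ((par : FM c) ⊗ₖ iot p)) (w := wσ σ) (ν := νσ σ) hu
  have h2 := fun z (hz : z ∈ Metric.ball p ρ) => hc.hom (z := z) hu fun s hs =>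
    mem_of_superset (Metric.isOpen_ball.mem_nhds (sc_mem hσ hp (Ioo_subset_Icc_self hs) hz))
      fun y hy => funext fun x => (T_KD U y x.1 x.2).trans (congrFun ((hb y hy).2 x.1) x.2)
  have h3 : ∀ z, (∀ j, z (σ j) = 0) → ∀ J, ht (fun p => epsV (βσ σ p) ⊗ₖ (1 : Fm n))
      (fun p => (ωσ σ p : ℂ) • ((par : FM c) ⊗ₖ iot p)) (wσ σ) (νσ σ) (fun z x => U z x.1 x.2) z
      (∅, J) = 0 := fun z hz J => by
    have h4 := ht_ker (A' := fun p => epsV (βσ σ p) ⊗ₖ (1 : Fm n))
      (B' := fun p => (ωσ σ p : ℂ) • ((par : FM c) ⊗ₖ iot p)) (w := wσ σ) (ν := νσ σ) (z := z) hu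
      (Matrix.diagonal (Pi.single (∅, J) 1)) fun s => funext fun x => by
        rw [Matrix.mulVec_diagonal]
        by_cases k : x = (∅, J)
        · subst k
          have e1 : ∀ q, cx z q * (ωσ σ q : ℂ) = 0 := fun q => by
            induction q using idx with
            | h l => rw [ωσ_hl, Nat.cast_zero, mul_zero]
            | h' l =>
              rw [ωσ_ah, cx_ah]
              rcases wσ_ind hσ l with h | ⟨j, rfl, -⟩
              · rw [h, Nat.cast_zero, mul_zero]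
              · rw [hz, star_zero, zero_mul]
          have e2 : ∀ (v : Fin c → ℂ) S, epsV v ∅ S = 0 := fun v S =>
            (mulVec_ev (epsV v) S ∅).symm.trans (epsV_mulVec_empty v (ev S))
          simp only [gi, Matrix.smul_mulVec, Matrix.mulVec_smul, smul_smul, e1, zero_smul,
            Finset.sum_const_zero, add_zero, Finset.sum_apply, kron_apply, e2, zero_mul, mul_zero,
            Pi.zero_apply]
        · rw [Pi.single_eq_of_ne k, zero_mul, Pi.zero_apply]
    have h5 := congrFun h4 (∅, J)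
    rwa [Matrix.mulVec_diagonal, Pi.single_eq_same, one_mul] at h5
  generalize ht (κ := FI c × FI (n + n)) _ _ _ _ _ = v at h1 h2 h3
  have h6 : ∀ S, ContDiff ℝ ∞ fun z J => v z (S, J) := fun S =>
    contDiff_pi.2 fun J => contDiff_pi.1 h1 (S, J)
  refine ⟨fun z S => pm n 0 *ᵥ fun J => v z (S, J), contDiff_pi.2 fun S => cd_mul' _ (h6 S),
    fun z S => by rw [Matrix.mulVec_mulVec, f1b.pm_mul, if_pos rfl], fun z hz =>
      (congrArg (pm n 0 *ᵥ ·) (funext (h3 z hz))).trans (Matrix.mulVec_zero _),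
    mem_of_superset (Metric.ball_mem_nhds p hρ) fun z hz S => ?_⟩
  have h7 := (hb _ (sc_mem hσ hp (s := 0) ⟨le_rfl, zero_le_one⟩ hz)).1
  have h8 : KD (fun z j => z (σ j)) (fun z S J => v z (S, J)) z S =
      U z S - if S = ∅ then pbk (sc (wσ σ) 0) (fun y => U y ∅) z else 0 := funext fun J => by
    rw [← T_KD, h2 z hz, Pi.sub_apply, Pi.sub_apply, Λ, dia_pow, kron_apply, pbk, lr_sc (h7 ∅)]
    simp only [dgl, Matrix.diagonal_apply, ite_mul, zero_mul, Finset.sum_ite_eq, Finset.mem_univ,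
      if_true, Complex.ofReal_zero]
    split_ifs with k
    · rw [k, Finset.card_empty, pow_zero, one_mul]
    · rw [zero_pow (Finset.card_eq_zero.not.2 k), zero_mul, Pi.zero_apply]
  have h9 : pm n 0 *ᵥ (U z S - if S = ∅ then pbk (sc (wσ σ) 0) (fun y => U y ∅) z else 0) =
      U z S - if S = ∅ then pbk (sc (wσ σ) 0) (fun y => U y ∅) z else 0 := by
    rw [Matrix.mulVec_sub, (hb z hz).1]
    split_ifs
    · rw [pbk, lr_sc (h7 ∅), Matrix.mulVec_mulVec, pm, dw, Matrix.diagonal_mul_diagonal]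
      simp only [mul_comm]
      rw [← Matrix.diagonal_mul_diagonal, ← Matrix.mulVec_mulVec]
      exact congrArg (fun x => _ - _ *ᵥ x) (h7 ∅)
    · rw [Matrix.mulVec_zero]
  rw [← h9, ← h8, KD, KD, db_pm ((h6 S).differentiable (by simp) z), Matrix.mulVec_add,
    Matrix.mulVec_smul, Matrix.mulVec_sum]
  simp only [Matrix.mulVec_smul]

end Vale.Agent.P269HK
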