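import Vale.Agent.P269HS.Chi

/-!
# P269, block H: Euler characteristics of triangular differentials
-/

noncomputable section

namespace Vale.Agent.P269HK

open Vale.Agent.P275FM Vale.Agent.P269HS

section neg
variable {T : Type} [AddCommGroup T] [Module ℂ T] {D σ : Module.End ℂ T}

theorem sgn_chi (h1 : ∀ a, σ (σ a) = a) (h2 : ∀ a, D (σ a) = -σ (D a)) (k : ℕ) :
    (Fd ((-1 : ℂ) ^ k • D) ↔ Fd D) ∧
      chi ((-1 : ℂ) ^ k • D) ((-1 : ℂ) ^ k • σ) = (-1) ^ k * chi D σ := by
  rcases neg_one_pow_eq_or ℂ k with h | h <;> rw [h]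
  · rw [one_smul, one_smul, one_mul]
    exact ⟨Iff.rfl, rfl⟩
  · have h3 : ∀ a, D (σ a) = σ ((-D) a) := fun a => by rw [h2, LinearMap.neg_apply, map_neg]
    have h4 : Function.Bijective σ := Function.Involutive.bijective h1
    rw [neg_one_smul, neg_one_smul, neg_one_mul, ← chi_neg (Ch.of_anti h2)]
    exact ⟨fd_iso h3 h4, chi_iso h3 h4 (fun a => by
      rw [LinearMap.neg_apply, LinearMap.neg_apply, map_neg, h2]) fun a => by
        rw [LinearMap.neg_apply, LinearMap.neg_apply, map_neg]⟩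

end neg

variable {ι : Type} [Fintype ι] [DecidableEq ι] {T : ι → Type} [∀ i, AddCommGroup (T i)]
  [∀ i, Module ℂ (T i)]

variable (T) in
/-- families supported in `s` -/
def Sup (s : Finset ι) : Submodule ℂ (∀ i, T i) where
  carrier := {u | ∀ j, j ∉ s → u j = 0}
  add_mem' ha hb j hj := by rw [Pi.add_apply, ha j hj, hb j hj, add_zero]
  zero_mem' _ _ := rfl
  smul_mem' c _ ha j hj := by rw [Pi.smul_apply, ha j hj, smul_zero]

/-- `D` is triangular with diagonal `Di` -/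
structure Tr (D σ : Module.End ℂ (∀ i, T i)) (Di σi : ∀ i, Module.End ℂ (T i)) (w : ι → ℕ) :
    Prop where
  dd : ∀ u, D (D u) = 0
  anti : ∀ u, D (σ u) = -σ (D u)
  hσ : ∀ u i, σ u i = σi i (u i)
  hD : ∀ u i, (∀ j, w i < w j → u j = 0) → D u i = Di i (u i)

/-- lower sets -/
def Dn (w : ι → ℕ) (s : Finset ι) : Prop := ∀ i ∈ s, ∀ j, w j < w i → j ∈ s

variable {D σ : Module.End ℂ (∀ i, T i)} {Di σi : ∀ i, Module.End ℂ (T i)} {w : ι → ℕ}
  (h : Tr D σ Di σi w) {s : Finset ι} {a : ι}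
include h

omit [Fintype ι] [DecidableEq ι] in
theorem Tr.mD (hs : Dn w s) : ∀ u ∈ Sup T s, D u ∈ Sup T s := fun u hu i hi => by
  rw [h.hD u i fun j hj => hu j fun k => hi (hs j k i hj), hu i hi, map_zero]

omit [Fintype ι] [DecidableEq ι] in
theorem Tr.mσ (s : Finset ι) : ∀ u ∈ Sup T s, σ u ∈ Sup T s := fun u hu i hi => by
  rw [h.hσ, hu i hi, map_zero]

omit [Fintype ι] in
theorem Tr.ses (ha : a ∉ s) (hm : ∀ x ∈ s, w x ≤ w a) (hs : Dn w s) (hs' : Dn w (insert a s)) :
    SES (D.restrict (h.mD hs)) (D.restrict (h.mD hs')) (Di a)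
      (Submodule.inclusion fun _ hu j hj => hu j fun k => hj (Finset.mem_insert_of_mem k))
      (LinearMap.proj a ∘ₗ Submodule.subtype _) where
  dd u := Subtype.ext (h.dd u)
  di _ := rfl
  dp u := (h.hD u a fun j hj => u.2 j fun k => (Finset.mem_insert.1 k).elim
    (fun e => lt_irrefl _ (e ▸ hj)) fun e => (hm j e).not_gt hj).symm
  inj := Submodule.inclusion_injective _
  surj x := ⟨⟨Pi.single a x, fun j hj => Pi.single_eq_of_ne
    (fun e => hj (Finset.mem_insert.2 (Or.inl e))) x⟩, Pi.single_eq_same a x⟩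
  ex u := ⟨fun k => ⟨⟨u.1, fun j hj => by
      by_cases e : j = a
      · subst e
        exact k
      · exact u.2 j fun k => (Finset.mem_insert.1 k).elim e hj⟩, rfl⟩,
    fun ⟨b, k⟩ => k ▸ b.2 a ha⟩

omit [Fintype ι] in
theorem Tr.ind (s : Finset ι) : ∀ hs : Dn w s, (∀ i ∈ s, Fd (Di i)) →
    Fd (D.restrict (h.mD hs)) ∧
      chi (D.restrict (h.mD hs)) (σ.restrict (h.mσ s)) = ∑ i ∈ s, chi (Di i) (σi i) := by
  induction s using Finset.induction_on_max_value w with
  | empty =>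
    intro hs _
    have : Subsingleton (Sup T ∅) := ⟨fun a b => Subtype.ext (funext fun j =>
      (a.2 j (Finset.notMem_empty j)).trans (b.2 j (Finset.notMem_empty j)).symm)⟩
    exact of_subsingleton
  | insert a s ha hm ih =>
    intro hs' hf
    have hs : Dn w s := fun i hi j hj =>
      (Finset.mem_insert.1 (hs' i (Finset.mem_insert_of_mem hi) j hj)).resolve_left
        fun e => (hm i hi).not_gt (e ▸ hj)
    obtain ⟨h1, h2⟩ := ih hs fun i hi => hf i (Finset.mem_insert_of_mem hi)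
    have h3 := h.ses ha hm hs hs'
    have h4 := hf a (Finset.mem_insert_self a s)
    refine ⟨fd_mid h3 h1 h4, ?_⟩
    rw [Finset.sum_insert ha, ← h2, add_comm]
    exact chi_ses h3 h1 h4 (fun u => Subtype.ext (h.anti u)) (fun _ => rfl)
      fun u => (h.hσ u a).symm

omit h [DecidableEq ι] in
theorem sup_bij : Function.Bijective (Sup T Finset.univ).subtype :=
  ⟨Subtype.val_injective, fun u => ⟨⟨u, fun j hj => (hj (Finset.mem_univ j)).elim⟩, rfl⟩⟩

theorem Tr.all (hf : ∀ i, Fd (Di i)) : Fd D ∧ chi D σ = ∑ i, chi (Di i) (σi i) := by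
  obtain ⟨h1, h2⟩ := h.ind Finset.univ (fun _ _ j _ => Finset.mem_univ j) fun i _ => hf i
  exact ⟨(fd_iso (f := (Sup T Finset.univ).subtype) (fun _ => rfl) sup_bij).1 h1,
    (chi_iso (f := (Sup T Finset.univ).subtype) (fun _ => rfl) sup_bij h.anti
      fun _ => rfl).symm.trans h2⟩

theorem Tr.top (ha : ∀ x, w x ≤ w a) (hf : ∀ i, i ≠ a → Fd (Di i)) (h0 : Fd D) : Fd (Di a) := by
  have hs : Dn w (Finset.univ.erase a) := fun i _ j hj =>
    Finset.mem_erase.2 ⟨fun e => (ha i).not_gt (e ▸ hj), Finset.mem_univ j⟩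
  have e := Finset.insert_erase (Finset.mem_univ a)
  have hs' : Dn w (insert a (Finset.univ.erase a)) := fun _ _ j _ => e.symm ▸ Finset.mem_univ j
  refine fd_quo (h.ses (Finset.notMem_erase a _) (fun x _ => ha x) hs hs')
    (h.ind _ hs fun i hi => hf i (Finset.mem_erase.1 hi).1).1
    ((fd_iso (f := Submodule.subtype _) (fun _ => rfl) ?_).2 h0)
  rw [e]
  exact sup_bij

end Vale.Agent.P269HK
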