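import Vale.Agent.P269HK.Chart
import Vale.Agent.P269HK.Tri

/-!
# P269, block H: the Koszul-Dolbeault complex of sections of `O(d j)`
-/

open scoped Manifold ContDiff Topology Matrix
open Filter
open Vale.Agent.P272.K Vale.Agent.P299.IX Vale.Agent.P299.IX.Fock Vale.Agent.P281Z.Hg
  Vale.Agent.P281Z.Hg.G1H Vale.Agent.P281Z.Hg.G2H Vale.Agent.P275MC Vale.Agent.P275FM
  Vale.Agent.P281Z.Hg.Ka Vale.Agent.P269HS
open Vale.Agent.P275AR (ty_vl)

noncomputable section

namespace Vale.Agent.P269HK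

variable {n c : ℕ}

theorem iot_ne {j : Fin c} {S S' : FI c} (h : iot j S S' ≠ 0) : j ∉ S ∧ S' = insert j S := by
  by_contra k
  exact h (if_neg k)

theorem iotV_apply (v : Fin c → ℂ) (S S' : FI c) : iotV v S S' = ∑ j, v j * iot j S S' := by
  simp only [iotV, Matrix.sum_apply, Matrix.smul_apply, smul_eq_mul]

theorem sum_sum_smul (B B' : FM c) (X : FI c → Fo n) (S : FI c) :
    ∑ S', B S S' • ∑ S'', B' S' S'' • X S'' = ∑ S'', (B * B') S S'' • X S'' := by
  simp only [Finset.smul_sum, smul_smul, Matrix.mul_apply, Finset.sum_smul]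
  exact Finset.sum_comm

/-- local exactness where one of the functions is a unit -/
theorem chart_off {g : Cm n → Fin c → ℂ} {p : Cm n} {j : Fin c}
    (hg : ContDiffAt ℂ ω (fun z => g z j) p) (hj : g p j ≠ 0) {U : Cm n → FI c → Fo n}
    (hU : ∀ᶠ z in 𝓝 p, ContDiffAt ℝ ∞ U z) (hty : ∀ᶠ z in 𝓝 p, ∀ S, pm n 0 *ᵥ U z S = U z S)
    (h0 : ∀ᶠ z in 𝓝 p, ∀ S, KD g U z S = 0) :
    ∃ V : Cm n → FI c → Fo n, (∀ᶠ z in 𝓝 p, ContDiffAt ℝ ∞ V z) ∧
      (∀ᶠ z in 𝓝 p, ∀ S, pm n 0 *ᵥ V z S = V z S) ∧ ∀ᶠ z in 𝓝 p, ∀ S, KD g V z S = U z S := by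
  have h1 := (hg.inv hj).eventually (by simp)
  have h2 : ∀ z S, ContDiffAt ℝ ∞ U z → ∀ S', ContDiffAt ℝ ∞ (fun y => eps j S S' • U y S') z :=
    fun z S k S' => (contDiffAt_pi.1 k S').const_smul _
  refine ⟨fun z S => (g z j)⁻¹ • ∑ S', eps j S S' • U z S', ?_, ?_, ?_⟩
  · filter_upwards [h1, hU] with z k1 k2
    exact contDiffAt_pi.2 fun S => ((k1.restrict_scalars ℝ).of_le le_top).smul
      (ContDiffAt.sum fun S' _ => h2 z S k2 S')
  · filter_upwards [hty] with z k S
    simp only [Matrix.mulVec_smul, Matrix.mulVec_sum, k]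
  · filter_upwards [h1, hU, h0, hg.continuousAt.eventually_ne hj] with z k1 k2 k3 k4 S
    have d1 : DifferentiableAt ℂ (fun y => (g y j)⁻¹) z := k1.differentiableAt (by simp)
    have d2 := fun S' => (h2 z S k2 S').differentiableAt (by simp)
    have e1 : db (fun y => (g y j)⁻¹ • ∑ S', eps j S S' • U y S') z =
        (g z j)⁻¹ • ∑ S', eps j S S' • db (fun y => U y S') z := by
      have e0 : ∀ l, Dv (ah l) (fun y => (g y j)⁻¹ • ∑ S', eps j S S' • U y S') z =
          (g z j)⁻¹ • ∑ S', eps j S S' • Dv (ah l) (fun y => U y S') z := fun l => by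
        rw [Dv_fmul (d1.restrictScalars ℝ) (.fun_sum fun S' _ => d2 S'), dr_ah,
          Kb.dzb_hol d1, zero_smul, zero_add, Dv_sum _ fun S' _ => d2 S']
        exact congrArg _ (Finset.sum_congr rfl fun S' _ =>
          Dv_smul _ ((contDiffAt_pi.1 k2 S').differentiableAt (by simp)))
      rw [db]
      simp only [e0]
      simp only [db, Matrix.mulVec_smul, Matrix.mulVec_sum, Finset.smul_sum]
      exact Finset.sum_comm
    have e2 : ∀ S', (-1 : ℂ) ^ S.card • eps j S S' • db (fun y => U y S') z =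
        eps j S S' • ∑ S'', iotV (g z) S' S'' • U z S'' := fun S' => by
      by_cases k : eps j S S' = 0
      · rw [k, zero_smul, zero_smul, smul_zero]
      · obtain ⟨a1, a2⟩ := iot_ne (S := S') (S' := S) k
        rw [smul_comm, a2, Finset.card_insert_of_notMem a1, pow_succ, mul_neg_one, neg_smul,
          eq_neg_of_add_eq_zero_left (k3 S'), neg_neg]
    rw [KD, e1, smul_comm, Finset.smul_sum]
    simp only [e2, smul_comm _ (g z j)⁻¹]
    rw [← Finset.smul_sum, ← smul_add, sum_sum_smul, sum_sum_smul, ← Finset.sum_add_distrib]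
    simp only [← add_smul, ← Matrix.add_apply, add_comm (eps j * _), iotV_eps, Matrix.smul_apply,
      Matrix.one_apply, mul_ite, mul_zero, ite_smul, zero_smul, Finset.sum_ite_eq,
      Finset.mem_univ, if_true, smul_smul, smul_eq_mul, mul_one, inv_mul_cancel₀ k4, one_smul]

variable {Y : Type} [TopologicalSpace Y] [ChartedSpace (Cm n) Y] {I : Type}
  [IsManifold 𝓘(ℂ, Cm n) ω Y] {e : Chart n Y} {y : Y}

namespace HC

variable {H : HC n Y I} {t : ℕ}

theorem G_congr {a b : ℕ → ℂ} (h : ∀ q ≤ n + n, a q = b q) (v : H.A t) : H.G t a v = H.G t b v :=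
  Subtype.ext (funext fun _ => P275AR.gl_congr h _)

theorem G_const (a : ℂ) (v : H.A t) : H.G t (fun _ => a) v = a • v :=
  Subtype.ext (funext fun _ => P275AR.gl_const a _)

theorem G_G (a b : ℕ → ℂ) (v : H.A t) : H.G t a (H.G t b v) = H.G t (fun q => a q * b q) v :=
  Subtype.ext (funext fun _ => P275AR.gl_gl a b _)

omit [IsManifold 𝓘(ℂ, Cm n) ω Y] in
theorem Hh.pow {F : Y → ℂ} (h : H.Hh 1 F) (k : ℕ) : H.Hh k fun y => F y ^ k := fun y i hi e he => by
  simpa only [zpow_one, zpow_natCast, div_pow] using (h y i hi e he).fun_pow k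

end HC

open HC

/-- the twist of the term `S` -/
def tw (d : Fin c → ℕ) (t : ℕ) (S : FI c) : ℕ := t + ∑ j ∈ S, d j

theorem tw_iot {d : Fin c → ℕ} {t : ℕ} {j : Fin c} {S S' : FI c} (h : iot j S S' ≠ 0) :
    tw d t S' = tw d t S + d j := by
  obtain ⟨a1, a2⟩ := iot_ne h
  rw [a2, tw, tw, Finset.sum_insert a1]
  omega

/-- the Koszul-Dolbeault complex -/
abbrev K (H : HC n Y I) (d : Fin c → ℕ) (t : ℕ) : Type := ∀ S : FI c, H.A (tw d t S)

variable {H : HC n Y I} {d : Fin c → ℕ} {t : ℕ} {F : Fin c → Y → ℂ} (hF : ∀ j, H.Hh (d j) (F j))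

variable (t) in
/-- the Koszul differential -/
def δ : Module.End ℂ (K H d t) := LinearMap.pi fun S => ∑ j, ∑ S',
  if h : iot j S S' ≠ 0 then iot j S S' • (mul (hF j).hs (by rw [tw_iot h, Nat.cast_add]) ∘ₗ
    LinearMap.proj S') else 0

theorem δ_apply (u : K H d t) (S : FI c) : δ t hF u S = ∑ j, ∑ S',
    if h : iot j S S' ≠ 0 then iot j S S' • mul (hF j).hs (by rw [tw_iot h, Nat.cast_add]) (u S')
      else 0 := by
  simp only [δ, LinearMap.pi_apply, LinearMap.sum_apply]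
  refine Finset.sum_congr rfl fun j _ => Finset.sum_congr rfl fun S' _ => ?_
  split_ifs <;> rfl

theorem hv_δ (u : K H d t) (S : FI c) (he : At e y) :
    hv (δ t hF u S) e y = ∑ S', iotV (fun j => F j y) S S' • hv (u S') e y := by
  simp only [δ_apply, hv_sum, iotV_apply, Finset.sum_smul]
  rw [Finset.sum_comm]
  refine Finset.sum_congr rfl fun S' _ => Finset.sum_congr rfl fun j _ => ?_
  split_ifs with h
  · rw [hv_smul, hv_mul _ _ _ he, smul_smul, mul_comm]
  · rw [hv_zero, not_not.1 h, mul_zero, zero_smul]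

/-- operators which commute with the multiplications up to a factor -/
theorem δ_comm {P Q : ∀ S : FI c, Module.End ℂ (H.A (tw d t S))}
    (h : ∀ j S S' (k : iot j S S' ≠ 0) v, P S (mul (hF j).hs (by rw [tw_iot k, Nat.cast_add]) v) =
      mul (hF j).hs (by rw [tw_iot k, Nat.cast_add]) (Q S' v)) (u : K H d t) (S : FI c) :
    P S (δ t hF u S) = δ t hF (fun S => Q S (u S)) S := by
  simp only [δ_apply, map_sum]
  refine Finset.sum_congr rfl fun j _ => Finset.sum_congr rfl fun S' _ => ?_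
  split_ifs with k
  · rw [map_smul, h j S S' k]
  · exact map_zero _

variable (H d t) in
/-- componentwise operators -/
def cw (P : ∀ S : FI c, Module.End ℂ (H.A (tw d t S))) : Module.End ℂ (K H d t) :=
  LinearMap.pi fun S => P S ∘ₗ LinearMap.proj S

variable (t) in
/-- the total differential -/
def DK : Module.End ℂ (K H d t) := cw H d t (fun S => (-1 : ℂ) ^ S.card • H.D _) + δ t hF

variable (H d t) in
/-- the total parity -/
def σK : Module.End ℂ (K H d t) := cw H d t fun S => (-1 : ℂ) ^ S.card • H.σ _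

theorem DK_apply (u : K H d t) (S : FI c) :
    DK t hF u S = (-1 : ℂ) ^ S.card • H.D _ (u S) + δ t hF u S := rfl

theorem card_iot {j : Fin c} {S S' : FI c} (h : iot j S S' ≠ 0) : S'.card = S.card + 1 := by
  rw [(iot_ne h).2, Finset.card_insert_of_notMem (iot_ne h).1]

theorem sgn_sq (k : ℕ) : (-1 : ℂ) ^ k * (-1) ^ k = 1 := by rw [← mul_pow]; simp

theorem δ_δ (u : K H d t) : δ t hF (δ t hF u) = 0 := funext fun S => hv_ext fun e y he => by
  simp only [hv_δ hF _ _ he, sum_sum_smul, iotV_sq, Matrix.zero_apply, zero_smul,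
    Finset.sum_const_zero, Pi.zero_apply, hv_zero]

theorem trK : Tr (DK t hF) (σK H d t) (fun S => (-1 : ℂ) ^ S.card • H.D _)
    (fun S => (-1 : ℂ) ^ S.card • H.σ _) Finset.card where
  dd u := funext fun S => by
    have h1 := δ_comm hF (P := fun S => (-1 : ℂ) ^ S.card • H.D _)
      (Q := fun S => -((-1 : ℂ) ^ S.card • H.D _)) (fun j S S' k v => by
        rw [LinearMap.smul_apply, D_mul (hF j), LinearMap.neg_apply, LinearMap.smul_apply, card_iot k,
          pow_succ, mul_neg_one, neg_smul, neg_neg, map_smul]) u S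
    rw [DK_apply, DK_apply, map_add, map_smul, D_D, smul_zero, zero_add, DK, LinearMap.add_apply,
      map_add, δ_δ, add_zero]
    refine (congrArg (· + _) h1).trans ?_
    rw [← Pi.add_apply, ← map_add]
    exact congrFun ((congrArg _ (neg_add_cancel _)).trans (map_zero _)) S
  anti u := funext fun S => by
    have h1 := δ_comm hF (P := fun S => -((-1 : ℂ) ^ S.card • H.σ _))
      (Q := fun S => (-1 : ℂ) ^ S.card • H.σ _) (fun j S S' k v => by
        rw [LinearMap.neg_apply, LinearMap.smul_apply, σ_mul, LinearMap.smul_apply, card_iot k,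
          pow_succ, mul_neg_one, neg_smul, map_neg, map_smul]) u S
    show (-1 : ℂ) ^ S.card • H.D _ ((-1 : ℂ) ^ S.card • H.σ _ (u S)) + _ =
      -((-1 : ℂ) ^ S.card • H.σ _ (DK t hF u S))
    rw [DK_apply, map_add, map_smul, map_smul, D_σ, smul_add, neg_add, smul_neg, smul_neg]
    exact congrArg _ h1.symm
  hσ _ _ := rfl
  hD u S h := by
    rw [DK_apply, δ_apply, Finset.sum_eq_zero, add_zero, LinearMap.smul_apply]
    refine fun j _ => Finset.sum_eq_zero fun S' _ => ?_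
    split_ifs with k
    · rw [h S' (by rw [card_iot k]; exact Nat.lt_succ_self _), map_zero, smul_zero]
    · rfl

theorem δ_NA {u : K H d t} (h : ∀ S, u S ∈ NA y) (S : FI c) : δ t hF u S ∈ NA y :=
  (eventually_all.2 fun S => mem_NA.1 (h S)).mono fun x hx e he => by
    simp only [hv_δ hF _ _ he, hx _ e he, smul_zero, Finset.sum_const_zero]

theorem DK_NA {u : K H d t} (h : ∀ S, u S ∈ NA y) (S : FI c) : DK t hF u S ∈ NA y :=
  (NA y).add_mem ((NA y).smul_mem _ (D_NA (h S))) (δ_NA hF h S)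

/-- the equations in a chart -/
def gc (H : HC n Y I) (d : Fin c → ℕ) (F : Fin c → Y → ℂ) (e : Chart n Y) (k : I) (z : Cm n)
    (j : Fin c) : ℂ := F j (e.symm z) / H.x (e.symm z) k ^ (d j : ℤ)

/-- the components in a chart -/
def Uc (u : K H d t) (e : Chart n Y) (k : I) (z : Cm n) (S : FI c) : Fo n := vl ((u S).1 k) e z

theorem vl_DK (u : K H d t) (he : At e y) {k : I} (hk : H.x y k ≠ 0) (S : FI c) :
    Uc (DK t hF u) e k (e y) S = KD (gc H d F e k) (Uc u e k) (e y) S := by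
  rw [KD, Uc, DK_apply]
  refine (vl_add _ _ e (e y)).trans (congrArg₂ (· + ·) ?_ ?_)
  · exact congrArg (((-1 : ℂ) ^ S.card) • ·) (dlb_vl _ he)
  · rw [vl_eq _ he, hv_δ hF _ _ he, Finset.smul_sum]
    refine Finset.sum_congr rfl fun S' _ => ?_
    rw [Uc, vl_eq _ he, smul_smul, smul_smul, iotV_apply, iotV_apply, Finset.mul_sum,
      Finset.sum_mul]
    refine congrArg (· • _) (Finset.sum_congr rfl fun j _ => ?_)
    by_cases h : iot j S S' = 0
    · rw [h, mul_zero, mul_zero, mul_zero, zero_mul]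
    · rw [tw_iot h, gc, e.left_inv he.2, pow_add, zpow_natCast]
      field_simp

theorem Uc_sm (u : K H d t) (he : At e y) (k : I) :
    ∀ᶠ z in 𝓝 (e y), ContDiffAt ℝ ∞ (Uc u e k) z :=
  ev_at he (.of_forall fun x hx => contDiffAt_pi.2 fun _ => (vl_isF _).sm e x hx)

theorem Uc_ty (u : K H d t) (he : At e y) (k : I) :
    ∀ᶠ z in 𝓝 (e y), ∀ S, pm n 0 *ᵥ Uc u e k z S = Uc u e k z S :=
  ev_at he (.of_forall fun x hx S => by rw [Uc, ← ty_vl 0 _ e x hx, (u S).2.1])

theorem Uc_cl {u : K H d t} (h : ∀ S, DK t hF u S ∈ NA y) (he : At e y) {k : I}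
    (hk : H.x y k ≠ 0) : ∀ᶠ z in 𝓝 (e y), ∀ S, KD (gc H d F e k) (Uc u e k) z S = 0 :=
  ev_at he (((eventually_all.2 fun S => mem_NA.1 (h S)).and (H.near hk)).mono fun x hx hx' S => by
    rw [← vl_DK hF u hx' hx.2, Uc, vl_eq _ hx', hx.1 S e hx', smul_zero])

/-- from a chart to the manifold -/
theorem lift [T2Space Y] (u : K H d t) (he : At e y) {k : I} (hk : H.x y k ≠ 0)
    {V : Cm n → FI c → Fo n} (h1 : ∀ᶠ z in 𝓝 (e y), ContDiffAt ℝ ∞ V z)
    (h2 : ∀ᶠ z in 𝓝 (e y), ∀ S, pm n 0 *ᵥ V z S = V z S)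
    (h3 : ∀ᶠ z in 𝓝 (e y), ∀ S, KD (gc H d F e k) V z S = Uc u e k z S) :
    ∃ v : K H d t, Uc v e k =ᶠ[𝓝 (e y)] V ∧ ∀ S, DK t hF v S - u S ∈ NA y := by
  choose v hv using fun S => ex_germA (H := H) (tw d t S) he hk (V := fun z => V z S)
    (h1.mono fun _ h => contDiffAt_pi.1 h S) (h2.mono fun _ h => h S)
  have h4 : Uc v e k =ᶠ[𝓝 (e y)] V :=
    ev_at he ((eventually_all.2 hv).mono fun x hx _ => funext hx)
  refine ⟨v, h4, fun S => NA_of_chart he ?_⟩
  filter_upwards [H.near hk, (e.continuousAt he.2).eventually (h3.and h4.eventuallyEq_nhds)]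
    with x x1 x2 x3
  have h5 := (vl_DK hF v x3 x1 S).trans ((KD_congr x2.2 S).trans (x2.1 S))
  rw [hv_sub, hv_eq _ x3 x1, hv_eq _ x3 x1, sub_eq_zero]
  exact congrArg _ h5

end Vale.Agent.P269HK
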