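import Vale.Agent.P269HK.Kz
import Vale.Agent.P269HK.Cut
import Vale.Agent.P275AR.Fine
import Vale.Agent.P277Z.Slc.Basic

/-!
# P269, block H: the Koszul theorem for Dolbeault Euler characteristics
-/

open scoped Manifold ContDiff Topology Matrix
open Filter
open Vale.Agent.P272.K Vale.Agent.P299.IX Vale.Agent.P299.IX.Fock Vale.Agent.P281Z.Hg
  Vale.Agent.P281Z.Hg.G1H Vale.Agent.P281Z.Hg.G2H Vale.Agent.P275MC Vale.Agent.P275FM
  Vale.Agent.P269HS
open Vale.Agent.P281Z.Hg.Pb1H (ca pb_near near)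
open Vale.Agent.P275AR (ty_vl Fine)
open Vale.Agent.P280Z.Pu (smo_of hl_of)

noncomputable section

namespace Vale.Agent.P269HK

open HC

variable {r c : ℕ} {Y : Type} [TopologicalSpace Y] [ChartedSpace (Cm (r + c)) Y] {I : Type}
  [IsManifold 𝓘(ℂ, Cm (r + c)) ω Y] {M : Type} [TopologicalSpace M] [ChartedSpace (Cm r) M]
  {I' : Type} [IsManifold 𝓘(ℂ, Cm r) ω M] {H' : HC r M I'} {H : HC (r + c) Y I} {ι : M → Y}
  {μ : M → ℂ} {F : Fin c → Y → ℂ} {d : Fin c → ℕ} (h : Cut H' H ι μ F d) (t : ℕ)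

namespace Cut

/-- the differential of the cone -/
def dc : Module.End ℂ (K H d t × H'.A (tw d t ∅)) :=
  (DK t h.hF ∘ₗ LinearMap.fst ℂ _ _).prod
    (h.toCmp.res _ ∘ₗ LinearMap.proj (φ := fun S => H.A (tw d t S)) ∅ ∘ₗ LinearMap.fst ℂ _ _ -
      H'.D _ ∘ₗ LinearMap.snd ℂ _ _)

variable {t} in
theorem dc_apply (s : K H d t × H'.A (tw d t ∅)) :
    h.dc t s = (DK t h.hF s.1, h.toCmp.res _ (s.1 ∅) - H'.D _ s.2) := rfl

variable {t} in
theorem res_DK (u : K H d t) : h.toCmp.res _ (DK t h.hF u ∅) = H'.D _ (h.toCmp.res _ (u ∅)) := by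
  rw [DK_apply, Finset.card_empty, pow_zero, one_smul, map_add, h.toCmp.res_D, δ_apply, map_sum,
    Finset.sum_eq_zero, add_zero]
  intro j _
  rw [map_sum]
  refine Finset.sum_eq_zero fun S _ => ?_
  split_ifs
  · rw [map_smul, h.toCmp.res_mul_zero _ _ fun m => (h.rng _).2 ⟨m, rfl⟩ j, smul_zero]
  · exact map_zero _

/-- the cone as a fine complex -/
def fine : Fine Y (K H d t × H'.A (tw d t ∅)) where
  d := h.dc t
  π m := (cw H d t fun S => H.G _ fun q => if q + c < m + S.card then 1 else 0).prodMap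
    (H'.G _ fun q => if q + c + 1 < m then 1 else 0)
  G y :=
    { carrier := {s | (∀ S, s.1 S ∈ NA y) ∧ ∀ m, ι m = y → s.2 ∈ NA m}
      add_mem' := fun ha hb => ⟨fun S => (NA y).add_mem (ha.1 S) (hb.1 S),
        fun m k => (NA m).add_mem (ha.2 m k) (hb.2 m k)⟩
      zero_mem' := ⟨fun _ => (NA y).zero_mem, fun m _ => (NA m).zero_mem⟩
      smul_mem' := fun a _ ha => ⟨fun S => (NA y).smul_mem a (ha.1 S),
        fun m k => (NA m).smul_mem a (ha.2 m k)⟩ }
  R := {T | ∃ (ρ : Y → ℂ) (k : H.Hs 0 ρ) (k' : H'.Hs 0 fun m => ρ (ι m)),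
    T = (cw H d t fun _ => mul k (add_zero _).symm).prodMap (mul k' (add_zero _).symm)}

theorem dc_dc (s : K H d t × H'.A (tw d t ∅)) : h.dc t (h.dc t s) = 0 := by
  rw [dc_apply, dc_apply, (trK h.hF).dd, h.res_DK, map_sub, D_D, sub_zero, sub_self]
  rfl

variable [T2Space Y] [CompactSpace Y] [CompactSpace M]

theorem fine_ok : (h.fine t).OK where
  dd := h.dc_dc t
  π0 s := by
    refine Prod.ext (funext fun S => ?_) ?_
    · have := (Finset.card_le_univ S).trans_eq (Fintype.card_fin c)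
      refine (G_congr (b := fun _ => 0) (fun q _ => if_neg (by omega)) _).trans ?_
      rw [G_const, zero_smul]
      rfl
    · refine (G_congr (b := fun _ => 0) (fun q _ => if_neg (by omega)) _).trans ?_
      rw [G_const, zero_smul]
      rfl
  πd m s := by
    refine Prod.ext (funext fun S => ?_) ?_
    · show H.G _ _ (DK t h.hF s.1 S) = DK t h.hF _ S
      rw [DK_apply, DK_apply, map_add, map_smul, G_D]
      refine congrArg₂ (· + ·) (congrArg (fun x => _ • H.D _ x) (G_congr (fun q _ => ?_) _))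
        (δ_comm h.hF (P := fun S => H.G _ fun q => if q + c < m + 1 + S.card then 1 else 0)
          (Q := fun S => H.G _ fun q => if q + c < m + S.card then 1 else 0)
          (fun j S S' k v => ?_) s.1 S)
      · exact if_congr (by omega) rfl rfl
      · rw [G_mul, card_iot k]
        exact congrArg _ (G_congr (fun q _ => if_congr (by omega) rfl rfl) _)
    · show H'.G _ _ (h.toCmp.res _ (s.1 ∅) - H'.D _ s.2) =
        h.toCmp.res _ (H.G _ _ (s.1 ∅)) - H'.D _ (H'.G _ _ s.2)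
      rw [map_sub, G_D, h.toCmp.res_G]
      exact congrArg₂ (· - ·) (G_congr (fun q _ => if_congr
        (by rw [Finset.card_empty]; omega) rfl rfl) _)
        (congrArg _ (G_congr (fun q _ => if_congr (by omega) rfl rfl) _))
  ππ m s := Prod.ext (funext fun S => (G_G _ _ _).trans
      (G_congr (fun q _ => by split_ifs <;> simp) _))
    ((G_G _ _ _).trans (G_congr (fun q _ => by split_ifs <;> simp) _))
  top s := ⟨r + c + (r + c) + c + 2, Prod.ext (funext fun S =>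
      (G_congr (b := fun _ => 1) (fun q _ => if_pos (by omega)) _).trans
        ((G_const _ _).trans (one_smul _ _)))
    ((G_congr (b := fun _ => 1) (fun q _ => if_pos (by omega)) _).trans
        ((G_const _ _).trans (one_smul _ _)))⟩
  opn s y hs := by
    have h1 : IsClosed (ι '' {m | s.2 ∈ NA m}ᶜ) :=
      ((isOpen_iff_mem_nhds.2 fun _ => NA_ev).isClosed_compl.isCompact.image
        h.toCmp.cont).isClosed
    filter_upwards [eventually_all.2 fun S => NA_ev (hs.1 S), h1.isOpen_compl.mem_nhds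
      (fun ⟨m, a, b⟩ => a (hs.2 m b) : y ∉ ι '' {m | s.2 ∈ NA m}ᶜ)] with x x1 x2
    exact ⟨x1, fun m k => by_contra fun k' => x2 ⟨m, k', k⟩⟩
  sep s hs := Prod.ext (funext fun S => NA_sep fun y => (hs y).1 S)
    (NA_sep fun m => (hs (ι m)).2 m rfl)
  dG y s hs := ⟨DK_NA h.hF hs.1, fun m k => (NA m).sub_mem
    (h.toCmp.res_NA (k ▸ hs.1 ∅)) (D_NA (hs.2 m k))⟩
  πG _ _ _ hs := ⟨fun S => G_NA _ (hs.1 S), fun m k => G_NA _ (hs.2 m k)⟩
  RG := by
    rintro _ ⟨ρ, k, k', rfl⟩ y s hs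
    exact ⟨fun S => mul_NA k _ (hs.1 S), fun m e => mul_NA k' _ (hs.2 m e)⟩
  cut K L hK hL hd := by
    obtain ⟨ρ, h1, h2, h3⟩ := ex_cutA (n := r + c) hK hL hd
    refine ⟨_, ⟨ρ, hs_zero_iff.2 h1, hs_zero_iff.2 fun m => smt_comp h.hol (h1 _), rfl⟩,
      fun s => ⟨fun x hx => ⟨fun S => (h2 x hx).mono fun y hy e he => ?_, fun m k =>
        (h.toCmp.cont.continuousAt.eventually (k ▸ h2 x hx)).mono fun y hy e he => ?_⟩,
      fun x hx => ⟨fun S => (h3 x hx).mono fun y hy e he => ?_, fun m k =>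
        (h.toCmp.cont.continuousAt.eventually (k ▸ h3 x hx)).mono fun y hy e he => ?_⟩⟩⟩
    · exact (hv_sub _ _ e y).trans (sub_eq_zero.2 ((hv_mul _ _ _ he).trans
        (by rw [hy, one_smul]; rfl)))
    · exact (hv_sub _ _ e y).trans (sub_eq_zero.2 ((hv_mul _ _ _ he).trans
        (by rw [hy, one_smul]; rfl)))
    · exact (hv_mul _ _ _ he).trans (by rw [hy, zero_smul])
    · exact (hv_mul _ _ _ he).trans (by rw [hy, zero_smul])

omit [CompactSpace Y] [CompactSpace M] in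
theorem ex_off {y : Y} (hy : y ∉ Set.range ι) : (h.fine t).Ex ⊤ y := fun s _ hs => by
  obtain ⟨j, hj⟩ := not_forall.1 fun k => hy ((h.rng y).1 k)
  have he := ca (d := r + c) y
  have hk := H.κ_ne y
  obtain ⟨V, v1, v2, v3⟩ := chart_off (g := gc H d F _ (H.κ y)) (j := j)
    (h.hF j y _ hk _ he).contDiffAt (by
      rw [gc, (chartAt (Cm (r + c)) y).left_inv he.2]
      exact div_ne_zero hj (zpow_ne_zero _ hk))
    (Uc_sm s.1 he _) (Uc_ty s.1 he _) (Uc_cl h.hF hs.1 he hk)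
  obtain ⟨v, -, hv⟩ := lift h.hF s.1 he hk v1 v2 v3
  exact ⟨(v, 0), trivial, hv, fun m k => (hy ⟨m, k⟩).elim⟩

omit [CompactSpace Y] [CompactSpace M] in
theorem ex_on (m : M) : (h.fine t).Ex ⊤ (ι m) := fun s _ hs => by
  obtain ⟨k, hk, hi⟩ := h.ind m
  have he := ca (d := r + c) (ι m)
  have he' := ca (d := r) m
  generalize chartAt (Cm (r + c)) (ι m) = e at he
  generalize chartAt (Cm r) m = e' at he'
  have e0 : e (ι (e'.symm (e' m))) = e (ι m) := by rw [e'.left_inv he'.2]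
  have hp := (h.hh k).pow (tw d t ∅)
  have e1 : ((tw d t ∅ : ℕ) : ℤ) = (0 : ℕ) + (tw d t ∅ : ℕ) := by rw [Nat.cast_zero, zero_add]
  have e2 : ∀ (a : H'.A (tw d t ∅)) x, At e' x → vl ((mul hp.hs e1 a).1 (H'.κ m)) e' (e' x) =
      (μ x * H.x (ι x) k) ^ tw d t ∅ • hv a e' x := fun a x hx => by
    rw [vl_eq _ hx, hv_mul _ _ _ hx, pow_zero, one_smul]
  have e3 : ∀ (u : K H d t) x, At e' x → At e (ι x) →
      pbk (fun z => e (ι (e'.symm z))) (fun y => Uc u e k y ∅) (e' x) =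
      (μ x * H.x (ι x) k) ^ tw d t ∅ • hv (h.toCmp.res _ (u ∅)) e' x := fun u x hx hx' => by
    rw [h.toCmp.res_vl _ hx, (pb_near h.toCmp.cont (pb_vl _) _ hx hx').self_of_nhds]
    rfl
  have n1 : ∀ᶠ x in 𝓝 m, At e (ι x) := (h.toCmp.cont.continuousAt.eventually
    (e.open_source.mem_nhds he.2)).mono fun _ a => ⟨he.1, a⟩
  have g1 : ∀ j, AnalyticAt ℂ (fun z => gc H d F e k z j) (e (ι m)) := fun j => hi.1 j e he
  obtain ⟨V, v1, v2, v3, v4⟩ := chart (f := fun z => e (ι (e'.symm z))) (g := gc H d F e k)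
    (q := e' m) (U := Uc s.1 e k) (α := vl ((mul hp.hs e1 s.2).1 (H'.κ m)) e')
    ((hl_of h.hol).hol e' e m he' he) (e0 ▸ contDiffAt_pi.2 fun j => (g1 j).contDiffAt)
    (h.imm m e' e he' he) (by
      rw [e0, show gc H d F e k = fun z j => gc H d F e k z j from rfl,
        fderiv_pi fun j => (g1 j).differentiableAt]
      exact (P277Z.Slc.ind_iff_surj _).1 (hi.2 e he))
    ((near h.toCmp.cont he' he).mono fun z hz => funext fun j => by
      rw [gc, e.left_inv hz.2.2.2, (h.rng _).2 ⟨_, rfl⟩ j, zero_div, Pi.zero_apply])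
    (e0 ▸ Uc_sm s.1 he k) (e0 ▸ Uc_ty s.1 he k) (e0 ▸ Uc_cl h.hF hs.1 he hk)
    (ev_at he' (.of_forall fun x hx => (vl_isF _).sm e' x hx))
    (ev_at he' (.of_forall fun x hx => by rw [← ty_vl 0 _ e' x hx, (mul hp.hs e1 s.2).2.1]))
    (ev_at he' ((n1.and (mem_NA.1 (hs.2 m rfl))).mono fun x hx hx' => by
      rw [e3 _ x hx' hx.1, sub_eq_zero.1 ((hv_sub (h.toCmp.res _ (s.1 ∅)) (H'.D _ s.2) e' x).symm.trans
          (hx.2 e' hx')), ← e2 _ x hx',
        ← D_mul hp, D_val, dlb_vl _ hx']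
      rfl))
  rw [e0] at v1 v2 v3
  obtain ⟨v, w1, w2⟩ := lift h.hF s.1 he hk v1 v2 v3
  refine ⟨(v, 0), trivial, w2, fun m' k' => ?_⟩
  obtain rfl := h.inj k'
  refine NA_of_chart he' ?_
  filter_upwards [n1, h.toCmp.near hk, (e'.continuousAt he'.2).eventually v4,
    ((e.continuousAt he.2).comp h.toCmp.cont.continuousAt).eventually w1] with x x1 x2 x3 x4 x5
  have e4 := e3 v x x5 x1
  rw [pbk, e'.left_inv x5.2, show Uc v e k (e (ι x)) = V (e (ι x)) from x4] at e4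
  rw [pbk, e'.left_inv x5.2, e4, e2 _ x x5] at x3
  show hv (h.toCmp.res _ (v ∅) - H'.D _ 0 - s.2) e' x = 0
  rw [map_zero, sub_zero, hv_sub, sub_eq_zero]
  exact smul_right_injective _ (pow_ne_zero _ (mul_ne_zero (h.ne x) x2)) x3

theorem acyclic (s : K H d t × H'.A (tw d t ∅)) (hs : h.dc t s = 0) : ∃ y, s = h.dc t y := by
  obtain ⟨y, -, hy⟩ := (h.fine_ok t).exact Fine.sub_top (fun y => by
    by_cases k : y ∈ Set.range ι
    · obtain ⟨m, rfl⟩ := k
      exact h.ex_on t m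
    · exact h.ex_off t k) (u := s) trivial hs
  exact ⟨y, hy.symm⟩

omit [T2Space Y] [CompactSpace Y] [CompactSpace M] in
theorem ses : SES ((-1 : ℂ) ^ 1 • H'.D (tw d t ∅)) (h.dc t) (DK t h.hF) (LinearMap.inr ℂ _ _)
    (LinearMap.fst ℂ _ _) where
  dd := h.dc_dc t
  di a := by
    rw [dc_apply, pow_one, LinearMap.smul_apply, neg_one_smul ℂ]
    exact Prod.ext (map_zero _) ((congrArg (· - _) (map_zero _)).trans (zero_sub _))
  dp _ := rfl
  inj := LinearMap.inr_injective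
  surj u := ⟨(u, 0), rfl⟩
  ex s := ⟨fun k => ⟨s.2, Prod.ext k rfl⟩, fun ⟨_, k⟩ => k ▸ rfl⟩

include h in
/-- **the Koszul theorem** -/
theorem koszul (hf : ∀ S : Finset (Fin c), Fd (H.D (t + ∑ j ∈ S, d j))) :
    Fd (H'.D t) ∧ chi (H'.D t) (H'.σ t) = ∑ S : Finset (Fin c),
      (-1) ^ S.card * chi (H.D (t + ∑ j ∈ S, d j)) (H.σ (t + ∑ j ∈ S, d j)) := by
  obtain ⟨h1, h2⟩ := (trK (t := t) h.hF).all fun S => (sgn_chi σ_σ D_σ _).1.2 (hf S)
  obtain ⟨h3, h4⟩ := of_acyclic (σ := (σK H d t).prodMap ((-1 : ℂ) ^ 1 • H'.σ _)) (h.acyclic t)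
  have h5 := fd_sub (h.ses t) h3 h1
  obtain ⟨h6, h7⟩ := sgn_chi (D := H'.D (tw d t ∅)) σ_σ D_σ 1
  refine ⟨h6.1 h5, ?_⟩
  have h8 := chi_ses (σ := (σK H d t).prodMap ((-1 : ℂ) ^ 1 • H'.σ _))
    (σ₁ := (-1 : ℂ) ^ 1 • H'.σ _) (σ₂ := σK H d t) (h.ses t) h5 h1 (fun s => by
      refine Prod.ext ((trK h.hF).anti s.1) ?_
      show h.toCmp.res _ ((-1 : ℂ) ^ (∅ : FI c).card • H.σ _ (s.1 ∅)) -
        H'.D _ ((-1 : ℂ) ^ 1 • H'.σ _ s.2) =
        -((-1 : ℂ) ^ 1 • H'.σ _ (h.toCmp.res _ (s.1 ∅) - H'.D _ s.2))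
      have e : ∀ x : H'.A (tw d t ∅), (-1 : ℂ) ^ 1 • x = -x := fun x => by
        rw [pow_one]
        exact neg_one_smul ℂ x
      rw [Finset.card_empty, pow_zero, one_smul, e, e, neg_neg,
        map_neg, D_σ, neg_neg, map_sub]
      exact congrArg (· - _) (h.toCmp.res_G _ _))
    (fun a => Prod.ext (map_zero (σK H d t)) rfl) fun _ => rfl
  rw [h4, h7, h2, pow_one, neg_one_mul, eq_comm, neg_add_eq_zero] at h8
  exact h8.trans (Finset.sum_congr rfl fun S _ => (sgn_chi σ_σ D_σ _).2)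

include h in
/-- finiteness of the last term -/
theorem fd_top (hf : ∀ S : Finset (Fin c), S ≠ Finset.univ → Fd (H.D (t + ∑ j ∈ S, d j)))
    (h0 : Fd (H'.D t)) : Fd (H.D (t + ∑ j, d j)) :=
  (sgn_chi σ_σ D_σ _).1.1 ((trK (t := t) h.hF).top (a := Finset.univ)
    (fun S => Finset.card_le_univ S) (fun S k => (sgn_chi σ_σ D_σ _).1.2 (hf S k))
    (fd_quo (h.ses t) ((sgn_chi σ_σ D_σ 1).1.2 h0) (of_acyclic (σ := 0) (h.acyclic t)).1))

end Cut

/-- **hypersurfaces** -/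
theorem pascal {Y : Type} [TopologicalSpace Y] [ChartedSpace (Cm (r + 1)) Y]
    [IsManifold 𝓘(ℂ, Cm (r + 1)) ω Y] [T2Space Y] [CompactSpace Y] [CompactSpace M]
    {H : HC (r + 1) Y I} {ι : M → Y} {F : Fin 1 → Y → ℂ} {d : Fin 1 → ℕ}
    (h : Cut H' H ι μ F d) (t : ℕ) (h1 : Fd (H.D t)) (h2 : Fd (H'.D t)) :
    Fd (H.D (t + d 0)) ∧ chi (H.D t) (H.σ t) =
      chi (H.D (t + d 0)) (H.σ (t + d 0)) + chi (H'.D t) (H'.σ t) := by
  have e : ∀ S : Finset (Fin 1), S = ∅ ∨ S = {0} := by decide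
  have h3 : Fd (H.D (t + d 0)) := by
    have := h.fd_top t (fun S k => by
      obtain rfl := (e S).resolve_right k
      exact h1) h2
    rwa [Fin.sum_univ_one] at this
  refine ⟨h3, ?_⟩
  rw [(h.koszul t fun S => by
    rcases e S with rfl | rfl
    · exact h1
    · rwa [Finset.sum_singleton]).2,
    show (Finset.univ : Finset (Finset (Fin 1))) = {∅, {0}} by decide,
    Finset.sum_pair (by decide), Finset.sum_singleton, Finset.sum_empty, Finset.card_empty,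
    Finset.card_singleton, add_zero]
  ring

end Vale.Agent.P269HK
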